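import Mathlib

/-!
# P090: Lipschitz-free spaces and the bounded approximation property
-/

namespace P090

/-- `f` is a real Lipschitz function on `M` vanishing at the base point `o`. -/
def IsLip0 (M : Type*) [MetricSpace M] (o : M) (f : M → ℝ) : Prop :=
  f o = 0 ∧ ∃ K : ℝ, 0 ≤ K ∧ ∀ x y, |f x - f y| ≤ K * dist x y

theorem IsLip0.add {M : Type*} [MetricSpace M] {o : M} {f g : M → ℝ}
    (hf : IsLip0 M o f) (hg : IsLip0 M o g) : IsLip0 M o (f + g) := by
  obtain ⟨hf0, K, hK, hf⟩ := hf
  obtain ⟨hg0, L, hL, hg⟩ := hg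
  refine ⟨by simp [hf0, hg0], K + L, by positivity, fun x y => ?_⟩
  have h1 := hf x y
  have h2 := hg x y
  calc |(f + g) x - (f + g) y| = |(f x - f y) + (g x - g y)| := by
        simp only [Pi.add_apply]; congr 1; ring
    _ ≤ |f x - f y| + |g x - g y| := abs_add_le _ _
    _ ≤ (K + L) * dist x y := by linarith

theorem IsLip0.zero {M : Type*} [MetricSpace M] {o : M} : IsLip0 M o 0 :=
  ⟨rfl, 0, le_rfl, fun x y => by simp⟩

theorem IsLip0.smul {M : Type*} [MetricSpace M] {o : M} (a : ℝ) {f : M → ℝ}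
    (hf : IsLip0 M o f) : IsLip0 M o (a • f) := by
  obtain ⟨hf0, K, hK, hf⟩ := hf
  refine ⟨by simp [hf0], |a| * K, by positivity, fun x y => ?_⟩
  have h1 := hf x y
  calc |(a • f) x - (a • f) y| = |a| * |f x - f y| := by
        rw [← abs_mul]; simp only [Pi.smul_apply, smul_eq_mul]; congr 1; ring
    _ ≤ |a| * (K * dist x y) := by gcongr
    _ = |a| * K * dist x y := by ring

/-- The real vector space `Lip₀(M)` of real Lipschitz functions on `M` vanishing at the base
point `o`. -/
def lip0Submodule (M : Type*) [MetricSpace M] (o : M) : Submodule ℝ (M → ℝ) where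
  carrier := {f | IsLip0 M o f}
  add_mem' := IsLip0.add
  zero_mem' := IsLip0.zero
  smul_mem' := IsLip0.smul

/-- `Lip₀(M)` as a type of its own. -/
def Lip0 (M : Type*) [MetricSpace M] (o : M) : Type _ := lip0Submodule M o

variable (M : Type*) [MetricSpace M] (o : M)

instance : AddCommGroup (Lip0 M o) := Submodule.addCommGroup (lip0Submodule M o)

instance : Module ℝ (Lip0 M o) := Submodule.module (lip0Submodule M o)

variable {M o} in
/-- the underlying function of an element of `Lip₀(M)` -/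
def Lip0.fn (f : Lip0 M o) : M → ℝ := Subtype.val f

/-- The norm of `f ∈ Lip₀(M)` is its least Lipschitz constant. -/
noncomputable instance : Norm (Lip0 M o) :=
  ⟨fun f => sInf {K : ℝ | 0 ≤ K ∧ ∀ x y, |f.fn x - f.fn y| ≤ K * dist x y}⟩

variable {M o}

@[simp] theorem Lip0.fn_add (f g : Lip0 M o) (x : M) : (f + g).fn x = f.fn x + g.fn x := rfl

@[simp] theorem Lip0.fn_smul (a : ℝ) (f : Lip0 M o) (x : M) : (a • f).fn x = a * f.fn x := rfl

theorem Lip0.fn_o (f : Lip0 M o) : f.fn o = 0 := f.2.1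

theorem Lip0.bddBelow (f : Lip0 M o) :
    BddBelow {K : ℝ | 0 ≤ K ∧ ∀ x y, |f.fn x - f.fn y| ≤ K * dist x y} :=
  ⟨0, fun _ h => h.1⟩

theorem Lip0.norm_def (f : Lip0 M o) :
    ‖f‖ = sInf {K : ℝ | 0 ≤ K ∧ ∀ x y, |f.fn x - f.fn y| ≤ K * dist x y} := rfl

theorem Lip0.norm_nonneg' (f : Lip0 M o) : 0 ≤ ‖f‖ :=
  le_csInf f.2.2 fun _ h => h.1

theorem Lip0.norm_le (f : Lip0 M o) {K : ℝ} (hK : 0 ≤ K)
    (h : ∀ x y, |f.fn x - f.fn y| ≤ K * dist x y) : ‖f‖ ≤ K :=
  csInf_le f.bddBelow ⟨hK, h⟩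

theorem Lip0.abs_sub_le (f : Lip0 M o) (x y : M) : |f.fn x - f.fn y| ≤ ‖f‖ * dist x y := by
  rcases eq_or_ne x y with rfl | hxy
  · simp
  · have hd : 0 < dist x y := dist_pos.2 hxy
    rw [← div_le_iff₀ hd]
    refine le_csInf f.2.2 fun K hK => ?_
    rw [div_le_iff₀ hd]
    exact hK.2 x y

theorem Lip0.core : NormedSpace.Core ℝ (Lip0 M o) where
  norm_nonneg := Lip0.norm_nonneg'
  norm_smul := by
    have key : ∀ (a : ℝ) (f : Lip0 M o), ‖a • f‖ ≤ |a| * ‖f‖ := by
      intro a f
      refine Lip0.norm_le _ (mul_nonneg (abs_nonneg _) f.norm_nonneg') fun x y => ?_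
      rw [Lip0.fn_smul, Lip0.fn_smul, ← mul_sub, abs_mul, mul_assoc]
      exact mul_le_mul_of_nonneg_left (f.abs_sub_le x y) (abs_nonneg _)
    intro a f
    refine le_antisymm (key a f) ?_
    rcases eq_or_ne a 0 with rfl | ha
    · simpa using Lip0.norm_nonneg' ((0 : ℝ) • f)
    · have h := key a⁻¹ (a • f)
      rw [smul_smul, inv_mul_cancel₀ ha, one_smul, abs_inv] at h
      rw [Real.norm_eq_abs]
      calc |a| * ‖f‖ ≤ |a| * (|a|⁻¹ * ‖a • f‖) := by gcongr
        _ = ‖a • f‖ := by rw [← mul_assoc, mul_inv_cancel₀ (abs_ne_zero.2 ha), one_mul]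
  norm_triangle := by
    intro f g
    refine Lip0.norm_le _ (add_nonneg f.norm_nonneg' g.norm_nonneg') fun x y => ?_
    have h1 := f.abs_sub_le x y
    have h2 := g.abs_sub_le x y
    calc |(f + g).fn x - (f + g).fn y| = |(f.fn x - f.fn y) + (g.fn x - g.fn y)| := by
          simp only [Lip0.fn_add]; congr 1; ring
      _ ≤ |f.fn x - f.fn y| + |g.fn x - g.fn y| := abs_add_le _ _
      _ ≤ (‖f‖ + ‖g‖) * dist x y := by linarith
  norm_eq_zero_iff := by
    intro f
    constructor
    · intro h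
      refine Subtype.ext (funext fun x => ?_)
      have h1 := f.abs_sub_le x o
      rw [h, zero_mul, f.fn_o, sub_zero] at h1
      exact abs_nonpos_iff.1 h1
    · rintro rfl
      refine le_antisymm (Lip0.norm_le _ le_rfl fun x y => ?_) (Lip0.norm_nonneg' _)
      change |(0 : ℝ) - 0| ≤ _
      simp

variable (M o)

noncomputable instance : NormedAddCommGroup (Lip0 M o) := NormedAddCommGroup.ofCore Lip0.core

noncomputable instance : NormedSpace ℝ (Lip0 M o) := NormedSpace.ofCore Lip0.core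

/-- `Lip₀(M)*`, the dual Banach space of `Lip₀(M)`, with the operator norm. -/
def LipDual : Type _ := StrongDual ℝ (Lip0 M o)

noncomputable instance : NormedAddCommGroup (LipDual M o) :=
  ContinuousLinearMap.toNormedAddCommGroup

noncomputable instance : NormedSpace ℝ (LipDual M o) :=
  ContinuousLinearMap.toNormedSpace

/-- The evaluation functional `δ_x : f ↦ f x`, an element of `Lip₀(M)*`. -/
noncomputable def delta (x : M) : LipDual M o :=
  LinearMap.mkContinuous (E := Lip0 M o) (LinearMap.proj x ∘ₗ (lip0Submodule M o).subtype)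
    (dist x o) (fun f => by
      have h := f.abs_sub_le x o
      rw [f.fn_o, sub_zero, mul_comm] at h
      exact h)

/-- The closed linear span of the evaluations in `Lip₀(M)*`. -/
noncomputable def freeSubmodule : Submodule ℝ (LipDual M o) :=
  (Submodule.span ℝ (Set.range (delta M o))).topologicalClosure

/-- The Lipschitz-free space `F(M)`: the closed linear span of the evaluations in `Lip₀(M)*`,
with the norm of `Lip₀(M)*`. -/
def FreeSpace : Type _ := freeSubmodule M o

noncomputable instance : NormedAddCommGroup (FreeSpace M o) :=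
  Submodule.normedAddCommGroup (freeSubmodule M o)

noncomputable instance : NormedSpace ℝ (FreeSpace M o) :=
  Submodule.normedSpace (freeSubmodule M o)

/-- The `λ`-bounded approximation property. -/
def LambdaBAP (X : Type*) [NormedAddCommGroup X] [NormedSpace ℝ X] (lam : ℝ) : Prop :=
  ∀ C : Set X, IsCompact C → ∀ ε > 0, ∃ T : X →L[ℝ] X,
    FiniteDimensional ℝ (LinearMap.range (T : X →ₗ[ℝ] X)) ∧ ‖T‖ ≤ lam ∧ ∀ u ∈ C, ‖T u - u‖ < ε

/-- The bounded approximation property. -/
def BAP (X : Type*) [NormedAddCommGroup X] [NormedSpace ℝ X] : Prop :=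
  ∃ lam : ℝ, 1 ≤ lam ∧ LambdaBAP X lam

/-- `M` is uniformly discrete: distances between distinct points are bounded below. -/
def UniformlyDiscrete (M : Type*) [MetricSpace M] : Prop :=
  ∃ δ : ℝ, 0 < δ ∧ ∀ x y : M, x ≠ y → δ ≤ dist x y

end P090
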