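import Vale.Agent.P090.Basic
import Vale.Agent.P090.Defs

/-!
# P090, part 5a: the functionals `T δ_x`
-/

open scoped NNReal

namespace P090

variable (M : Type*) [MetricSpace M] (o : M)

variable {M}

omit [MetricSpace M] in
theorem LipBd.lincomb {M : Type*} [MetricSpace M] {h₁ h₂ : M → ℝ} {K₁ K₂ : ℝ} (a b : ℝ)
    (H₁ : LipBd K₁ h₁) (H₂ : LipBd K₂ h₂) :
    LipBd (|a| * K₁ + |b| * K₂) (fun y => a * h₁ y + b * h₂ y) := by
  refine ⟨add_nonneg (mul_nonneg (abs_nonneg _) H₁.1) (mul_nonneg (abs_nonneg _) H₂.1),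
    fun x y => ?_⟩
  have h1 := H₁.2 x y
  have h2 := H₂.2 x y
  calc |(a * h₁ x + b * h₂ x) - (a * h₁ y + b * h₂ y)|
      = |a * (h₁ x - h₁ y) + b * (h₂ x - h₂ y)| := by congr 1; ring
    _ ≤ |a * (h₁ x - h₁ y)| + |b * (h₂ x - h₂ y)| := abs_add_le _ _
    _ = |a| * |h₁ x - h₁ y| + |b| * |h₂ x - h₂ y| := by rw [abs_mul, abs_mul]
    _ ≤ |a| * (K₁ * dist x y) + |b| * (K₂ * dist x y) := by gcongr
    _ = (|a| * K₁ + |b| * K₂) * dist x y := by ring

variable {o} in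
/-- the element `h - h o` of `Lip₀(M)` -/
def mkLip (h : M → ℝ) (hh : ∃ K, LipBd K h) : Lip0 M o :=
  ⟨fun y => h y - h o, by
    obtain ⟨K, hK⟩ := hh
    refine ⟨sub_self _, K, hK.1, fun x y => ?_⟩
    have : h x - h o - (h y - h o) = h x - h y := by ring
    rw [this]
    exact hK.2 x y⟩

@[simp] theorem mkLip_fn (h : M → ℝ) (hh : ∃ K, LipBd K h) (x : M) :
    (mkLip (o := o) h hh).fn x = h x - h o := rfl

theorem norm_mkLip_le {h : M → ℝ} {K : ℝ} (hK : LipBd K h) : ‖mkLip (o := o) h ⟨K, hK⟩‖ ≤ K := by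
  refine Lip0.norm_le _ hK.1 fun x y => ?_
  have : h x - h o - (h y - h o) = h x - h y := by ring
  rw [mkLip_fn, mkLip_fn, this]
  exact hK.2 x y

theorem mkLip_lincomb {h₁ h₂ : M → ℝ} {K₁ K₂ : ℝ} (a b : ℝ)
    (H₁ : LipBd K₁ h₁) (H₂ : LipBd K₂ h₂) :
    mkLip (o := o) (fun y => a * h₁ y + b * h₂ y) ⟨_, H₁.lincomb a b H₂⟩
      = a • mkLip (o := o) h₁ ⟨K₁, H₁⟩ + b • mkLip (o := o) h₂ ⟨K₂, H₂⟩ := by
  refine Subtype.ext (funext fun x => ?_)
  change a * h₁ x + b * h₂ x - (a * h₁ o + b * h₂ o)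
    = a * (h₁ x - h₁ o) + b * (h₂ x - h₂ o)
  ring

variable (M) in
/-- `δ_x` in the strong dual. -/
noncomputable def delta1 (x : M) : StrongDual ℝ (Lip0 M o) := delta M o x

variable (M) in
/-- The Lipschitz-free space, in the strong dual. -/
noncomputable def FreeSpace1 : Submodule ℝ (StrongDual ℝ (Lip0 M o)) :=
  (Submodule.span ℝ (Set.range (delta1 M o))).topologicalClosure

theorem lambdaBAP_iff (lam : ℝ) : LambdaBAP (FreeSpace M o) lam ↔ LambdaBAP (FreeSpace1 M o) lam :=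
  Iff.rfl

theorem delta_apply (x : M) (f : Lip0 M o) : delta1 M o x f = f.fn x := rfl

/-- `δ_x` as an element of the free space -/
noncomputable def dl (x : M) : FreeSpace1 M o :=
  ⟨delta1 M o x, Submodule.le_topologicalClosure _ (Submodule.subset_span ⟨x, rfl⟩)⟩

theorem norm_dl_sub_le (x y : M) : ‖dl o x - dl o y‖ ≤ dist x y := by
  change ‖delta1 M o x - delta1 M o y‖ ≤ dist x y
  refine ContinuousLinearMap.opNorm_le_bound _ dist_nonneg fun f => ?_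
  change |f.fn x - f.fn y| ≤ _
  rw [mul_comm]
  exact f.abs_sub_le x y

theorem norm_dl_le (x : M) : ‖dl o x‖ ≤ dist x o := by
  change ‖delta1 M o x‖ ≤ dist x o
  refine ContinuousLinearMap.opNorm_le_bound _ dist_nonneg fun f => ?_
  change |f.fn x| ≤ _
  have h := f.abs_sub_le x o
  rw [f.fn_o, sub_zero, mul_comm] at h
  exact h

theorem pair_le (u : FreeSpace1 M o) {h : M → ℝ} {K : ℝ} (hK : LipBd K h) :
    |u.1 (mkLip h ⟨K, hK⟩)| ≤ ‖u‖ * K := by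
  have h1 := u.1.le_opNorm (mkLip h ⟨K, hK⟩)
  rw [Real.norm_eq_abs] at h1
  refine h1.trans ?_
  have h2 := norm_mkLip_le (o := o) hK
  exact mul_le_mul_of_nonneg_left h2 (norm_nonneg _)

/-- Elements of the span of the evaluations have finite support. -/
theorem span_support (v : StrongDual ℝ (Lip0 M o))
    (hv : v ∈ Submodule.span ℝ (Set.range (delta1 M o))) :
    ∃ F : Finset M, ∀ f : Lip0 M o, (∀ x ∈ F, f.fn x = 0) → v f = 0 := by
  classical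
  induction hv using Submodule.span_induction with
  | mem v hv =>
    obtain ⟨x, rfl⟩ := hv
    refine ⟨{x}, fun f hf => ?_⟩
    rw [delta_apply]
    exact hf x (Finset.mem_singleton_self x)
  | zero => exact ⟨∅, fun f _ => rfl⟩
  | add v w _ _ hv hw =>
    obtain ⟨F, hF⟩ := hv
    obtain ⟨G, hG⟩ := hw
    refine ⟨F ∪ G, fun f hf => ?_⟩
    change v f + w f = 0
    rw [hF f fun x hx => hf x (Finset.mem_union_left _ hx),
      hG f fun x hx => hf x (Finset.mem_union_right _ hx), add_zero]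
  | smul a v _ hv =>
    obtain ⟨F, hF⟩ := hv
    refine ⟨F, fun f hf => ?_⟩
    change a * v f = 0
    rw [hF f hf, mul_zero]

/-- Elements of the free space have almost finite support. -/
theorem almost_support (u : FreeSpace1 M o) {δ : ℝ} (hδ : 0 < δ) :
    ∃ F : Finset M, ∀ (K : ℝ) (h : M → ℝ) (hK : LipBd K h), (∀ x ∈ F, h x = 0) →
      |u.1 (mkLip h ⟨K, hK⟩)| ≤ δ * K := by
  classical
  obtain ⟨v, hv, hvd⟩ := Metric.mem_closure_iff.1 u.2 δ hδ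
  obtain ⟨F, hF⟩ := span_support o v hv
  refine ⟨insert o F, fun K h hK hz => ?_⟩
  have ho : h o = 0 := hz o (Finset.mem_insert_self _ _)
  have h0 : v (mkLip h ⟨K, hK⟩) = 0 := by
    refine hF _ fun x hx => ?_
    rw [mkLip_fn, ho, hz x (Finset.mem_insert_of_mem hx), sub_zero]
  have h1 : u.1 (mkLip h ⟨K, hK⟩) = (u.1 - v) (mkLip h ⟨K, hK⟩) := by
    change _ = u.1 (mkLip h ⟨K, hK⟩) - v (mkLip h ⟨K, hK⟩)
    rw [h0, sub_zero]
  rw [h1]
  have h2 := (u.1 - v).le_opNorm (mkLip h ⟨K, hK⟩)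
  rw [Real.norm_eq_abs] at h2
  refine h2.trans ?_
  rw [dist_eq_norm] at hvd
  have h3 := norm_mkLip_le (o := o) hK
  exact mul_le_mul hvd.le h3 (norm_nonneg _) hδ.le

/-- The tail estimate for a finite dimensional subspace. -/
theorem tail_fd {M X : Type*} [NormedAddCommGroup X] [NormedSpace ℝ X] (R : Submodule ℝ X)
    [FiniteDimensional ℝ R] (Q : Finset M → (X →ₗ[ℝ] ℝ) → ℝ → Prop)
    (hmono : ∀ F G L K, F ⊆ G → Q G L K → Q F L K) (hK0 : ∀ F L K, Q F L K → 0 ≤ K)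
    (halm : ∀ (u : X) (δ : ℝ), 0 < δ → ∃ F, ∀ L K, Q F L K → |L u| ≤ δ * K)
    {δ : ℝ} (hδ : 0 < δ) :
    ∃ F : Finset M, ∀ L K, Q F L K → ∀ u ∈ R, |L u| ≤ δ * K * ‖u‖ := by
  classical
  let b := Module.finBasis ℝ R
  set n := Module.finrank ℝ R with hn
  let e : R →L[ℝ] (Fin n → ℝ) := LinearMap.toContinuousLinearMap b.equivFun.toLinearMap
  have hpos : 0 < δ / ((n + 1) * (‖e‖ + 1)) := by positivity
  choose F hF using fun i : Fin n => halm (b i : X) _ hpos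
  refine ⟨Finset.univ.biUnion F, fun L K hQ u hu => ?_⟩
  have hzi : ∀ i, |L (b i : X)| ≤ δ / ((n + 1) * (‖e‖ + 1)) * K := fun i =>
    hF i L K (hmono _ _ L K (Finset.subset_biUnion_of_mem F (Finset.mem_univ i)) hQ)
  have hsum : (⟨u, hu⟩ : R) = ∑ i, b.equivFun ⟨u, hu⟩ i • b i := (b.sum_equivFun _).symm
  have hval : L u = ∑ i, b.equivFun ⟨u, hu⟩ i * L (b i : X) := by
    have h1 : (L ∘ₗ R.subtype) ⟨u, hu⟩ = L u := rfl
    rw [← h1]
    conv_lhs => rw [hsum]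
    rw [map_sum]
    refine Finset.sum_congr rfl fun i _ => ?_
    rw [map_smul]
    rfl
  rw [hval]
  refine (Finset.abs_sum_le_sum_abs _ _).trans ?_
  have hc : ∀ i, |b.equivFun ⟨u, hu⟩ i| ≤ ‖e‖ * ‖u‖ := by
    intro i
    have h1 : ‖e ⟨u, hu⟩ i‖ ≤ ‖e ⟨u, hu⟩‖ := norm_le_pi_norm _ i
    have h2 : ‖e ⟨u, hu⟩‖ ≤ ‖e‖ * ‖(⟨u, hu⟩ : R)‖ := e.le_opNorm _
    exact h1.trans h2
  have hterm : ∀ i ∈ (Finset.univ : Finset (Fin n)),
      |b.equivFun ⟨u, hu⟩ i * L (b i : X)|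
        ≤ ‖e‖ * ‖u‖ * (δ / ((n + 1) * (‖e‖ + 1)) * K) := by
    intro i _
    rw [abs_mul]
    exact mul_le_mul (hc i) (hzi i) (abs_nonneg _) (by positivity)
  refine (Finset.sum_le_sum hterm).trans ?_
  rw [Finset.sum_const, Finset.card_univ, Fintype.card_fin, nsmul_eq_mul]
  have hK : 0 ≤ K := hK0 _ _ _ hQ
  have e1 : (n : ℝ) * (‖e‖ * ‖u‖ * (δ / ((n + 1) * (‖e‖ + 1)) * K))
      = (n / (n + 1)) * (‖e‖ / (‖e‖ + 1)) * (δ * K * ‖u‖) := by
    have : (‖e‖ + 1) ≠ 0 := by positivity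
    field_simp
  rw [e1]
  have f1 : (n : ℝ) / (n + 1) ≤ 1 := div_le_one_of_le₀ (by linarith) (by positivity)
  have f2 : ‖e‖ / (‖e‖ + 1) ≤ 1 := div_le_one_of_le₀ (by linarith) (by positivity)
  have f3 : (n : ℝ) / (n + 1) * (‖e‖ / (‖e‖ + 1)) ≤ 1 :=
    mul_le_one₀ f1 (by positivity) f2
  have f4 : 0 ≤ δ * K * ‖u‖ := by positivity
  exact mul_le_of_le_one_left f4 f3

/-- The construction of the functionals in an abstract predual-like setting. -/
theorem functionals_abs {X : Type*} [NormedAddCommGroup X] [NormedSpace ℝ X] (d : M → X)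
    (pr : ∀ h : M → ℝ, (∃ K, LipBd K h) → X →ₗ[ℝ] ℝ)
    (hd : ∀ x y, ‖d x - d y‖ ≤ dist x y) (hdo : ∀ x, ‖d x‖ ≤ dist x o)
    (hpr : ∀ (K : ℝ) (h : M → ℝ) (hK : LipBd K h) (u : X), |pr h ⟨K, hK⟩ u| ≤ ‖u‖ * K)
    (hprd : ∀ h hh x, pr h hh (d x) = h x - h o)
    (hlin : ∀ (h₁ h₂ : M → ℝ) (K₁ K₂ a b : ℝ) (H₁ : LipBd K₁ h₁) (H₂ : LipBd K₂ h₂) (u : X),
      pr (fun y => a * h₁ y + b * h₂ y) ⟨_, H₁.lincomb a b H₂⟩ u
        = a * pr h₁ ⟨K₁, H₁⟩ u + b * pr h₂ ⟨K₂, H₂⟩ u)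
    (halm : ∀ (u : X) (δ : ℝ), 0 < δ → ∃ F : Finset M, ∀ (K : ℝ) (h : M → ℝ) (hK : LipBd K h),
      (∀ x ∈ F, h x = 0) → |pr h ⟨K, hK⟩ u| ≤ δ * K)
    {lam : ℝ} (h : LambdaBAP X lam) (hlam : 0 ≤ lam)
    (A : Finset M) {ε : ℝ} (hε : 0 < ε) : Nonempty (Functionals M o lam A ε) := by
  classical
  obtain ⟨T, hfd, hT, hnear⟩ := h (d '' (A : Set M)) (A.finite_toSet.image _).isCompact ε hε
  let σ : M → (M → ℝ) → ℝ := fun x h =>
    if hh : ∃ K, LipBd K h then h o + pr h hh (T (d x)) else 0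
  have hσ : ∀ (x : M) (K : ℝ) (h : M → ℝ) (hK : LipBd K h),
      σ x h = h o + pr h ⟨K, hK⟩ (T (d x)) := by
    intro x K h hK
    have hh : ∃ K, LipBd K h := ⟨K, hK⟩
    simp only [σ, dif_pos hh]
  refine ⟨{ σ := σ, lin := ?_, lip := ?_, near := ?_, tail := ?_ }⟩
  · intro x h₁ h₂ K₁ K₂ a b H₁ H₂
    rw [hσ x _ _ (H₁.lincomb a b H₂), hσ x _ _ H₁, hσ x _ _ H₂, hlin h₁ h₂ K₁ K₂ a b H₁ H₂]
    ring
  · intro K h hK x y
    rw [hσ x K h hK, hσ y K h hK]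
    have e1 : h o + pr h ⟨K, hK⟩ (T (d x)) - (h o + pr h ⟨K, hK⟩ (T (d y)))
        = pr h ⟨K, hK⟩ (T (d x - d y)) := by
      rw [map_sub, map_sub]
      ring
    rw [e1]
    refine (hpr K h hK _).trans ?_
    have h1 : ‖T (d x - d y)‖ ≤ lam * dist x y :=
      (T.le_opNorm _).trans (mul_le_mul hT (hd x y) (norm_nonneg _) hlam)
    calc ‖T (d x - d y)‖ * K ≤ lam * dist x y * K :=
          mul_le_mul_of_nonneg_right h1 hK.1
      _ = lam * K * dist x y := by ring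
  · intro K h hK a ha
    rw [hσ a K h hK]
    have e1 : h o + pr h ⟨K, hK⟩ (T (d a)) - h a = pr h ⟨K, hK⟩ (T (d a) - d a) := by
      rw [map_sub, hprd]
      ring
    rw [e1]
    refine (hpr K h hK _).trans ?_
    exact mul_le_mul_of_nonneg_right (hnear _ ⟨a, ha, rfl⟩).le hK.1
  · intro δ hδ
    have hδ' : 0 < δ / (lam + 1) := by positivity
    have := hfd
    obtain ⟨F, hF⟩ := tail_fd (LinearMap.range (T : X →ₗ[ℝ] X))
      (fun F L K => ∃ (h : M → ℝ) (hK : LipBd K h), (∀ x ∈ F, h x = 0) ∧ L = pr h ⟨K, hK⟩)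
      (by
        rintro F G L K hFG ⟨h, hK, hz, hL⟩
        exact ⟨h, hK, fun x hx => hz x (hFG hx), hL⟩)
      (by
        rintro F L K ⟨h, hK, _, _⟩
        exact hK.1)
      (by
        intro u δ hδ
        obtain ⟨F, hF⟩ := halm u δ hδ
        refine ⟨F, ?_⟩
        rintro L K ⟨h, hK, hz, rfl⟩
        exact hF K h hK hz)
      hδ'
    refine ⟨insert o F, fun K h hK hz x => ?_⟩
    have ho : h o = 0 := hz o (Finset.mem_insert_self _ _)
    rw [hσ x K h hK, ho, zero_add]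
    have h1 := hF (pr h ⟨K, hK⟩) K ⟨h, hK, fun x hx => hz x (Finset.mem_insert_of_mem hx), rfl⟩
      (T (d x)) ⟨d x, rfl⟩
    refine h1.trans ?_
    have h2 : ‖T (d x)‖ ≤ lam * dist x o :=
      (T.le_opNorm _).trans (mul_le_mul hT (hdo x) (norm_nonneg _) hlam)
    have hK0 := hK.1
    calc δ / (lam + 1) * K * ‖T (d x)‖ ≤ δ / (lam + 1) * K * (lam * dist x o) := by gcongr
      _ = lam / (lam + 1) * (δ * K * dist x o) := by field_simp
      _ ≤ 1 * (δ * K * dist x o) := by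
          gcongr
          exact div_le_one_of_le₀ (by linarith) (by positivity)
      _ ≤ δ * K * (1 + dist x o) := by
          have : 0 ≤ δ * K := by positivity
          nlinarith

/-- the pairing with `h - h o` -/
noncomputable def prFree (h : M → ℝ) (hh : ∃ K, LipBd K h) : FreeSpace1 M o →ₗ[ℝ] ℝ where
  toFun := fun u => u.1 (mkLip h hh)
  map_add' := fun _ _ => rfl
  map_smul' := fun _ _ => rfl

/-- The functionals `σ x h = h o + ⟨T δ_x, h - h o⟩`. -/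
theorem functionals_of_lambdaBAP {lam : ℝ} (h : LambdaBAP (FreeSpace M o) lam) (hlam : 0 ≤ lam)
    (A : Finset M) {ε : ℝ} (hε : 0 < ε) : Nonempty (Functionals M o lam A ε) := by
  rw [lambdaBAP_iff] at h
  refine functionals_abs o (dl o) (prFree o) (norm_dl_sub_le o) (norm_dl_le o)
    (fun K h hK u => pair_le o u hK) (fun h hh x => rfl) ?_
    (fun u δ hδ => almost_support o u hδ) h hlam A hε
  intro h₁ h₂ K₁ K₂ a b H₁ H₂ u
  change u.1 (mkLip (fun y => a * h₁ y + b * h₂ y) ⟨_, H₁.lincomb a b H₂⟩)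
    = a * u.1 (mkLip h₁ ⟨K₁, H₁⟩) + b * u.1 (mkLip h₂ ⟨K₂, H₂⟩)
  rw [mkLip_lincomb o a b H₁ H₂, map_add, map_smul, map_smul, smul_eq_mul, smul_eq_mul]

end P090
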