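import Mathlib

/-!
# P090, basic definitions (shared by all parts)

Three involutions `m i : U → U` (`i : Fin 3`); a fixed point of `m i` is a missing edge of colour `i`.
-/

namespace P090

/-- Apply the letters of a word, from left to right. -/
def act {U : Type*} (m : Fin 3 → U → U) : U → List (Fin 3) → U
  | x, [] => x
  | x, i :: w => act m (m i x) w

/-- `Good m x w`: the word `w` is reduced (no letter is repeated twice in a row) and every letter
moves the current point. -/
def Good {U : Type*} (m : Fin 3 → U → U) : U → List (Fin 3) → Prop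
  | _, [] => True
  | x, i :: w => m i x ≠ x ∧ w.head? ≠ some i ∧ Good m (m i x) w

theorem act_nil0 {U : Type*} (m : Fin 3 → U → U) (x : U) : act m x [] = x := by
  simp only [act]

theorem act_cons0 {U : Type*} (m : Fin 3 → U → U) (x : U) (i : Fin 3) (w : List (Fin 3)) :
    act m x (i :: w) = act m (m i x) w := by
  simp only [act]

theorem good_nil0 {U : Type*} (m : Fin 3 → U → U) (x : U) : Good m x [] ↔ True := by
  simp only [Good]

theorem good_cons0 {U : Type*} (m : Fin 3 → U → U) (x : U) (i : Fin 3) (w : List (Fin 3)) :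
    Good m x (i :: w) ↔ m i x ≠ x ∧ w.head? ≠ some i ∧ Good m (m i x) w := by
  simp only [Good]

/-- number of letters fixing `x` -/
noncomputable def defi {U : Type*} (m : Fin 3 → U → U) (x : U) : ℝ := by
  classical exact ∑ i : Fin 3, if m i x = x then 1 else 0

/-- word distance, capped at `L` -/
noncomputable def dN {U : Type*} (m : Fin 3 → U → U) (L : ℕ) (x z : U) : ℕ :=
  sInf ({n | ∃ w : List (Fin 3), w.length = n ∧ act m x w = z} ∪ {L})

/-- no non-empty `Good` closed word of length `≤ g` at any point of `S` -/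
def Girth {U : Type*} (m : Fin 3 → U → U) (S : Set U) (g : ℕ) : Prop :=
  ∀ x ∈ S, ∀ w : List (Fin 3), w ≠ [] → w.length ≤ g → Good m x w → act m x w ≠ x

/-- The combinatorial input. -/
structure Sys (R : ℕ) (η : ℝ) where
  C : Type
  finC : Finite C
  U : Type
  cntU : Countable U
  lev : U → ℕ
  X : ℕ → Finset U
  m : Fin 3 → U → U
  c : U → C
  t : ℕ → ℕ
  g : ℕ → ℕ
  memX : ∀ j x, x ∈ X j ↔ lev x = j
  neX : ∀ j, (X j).Nonempty
  inv : ∀ i x, m i (m i x) = x
  levm : ∀ i x, lev (m i x) = lev x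
  P1 : ∀ (x : U) (w : List (Fin 3)), w.length ≤ R → c (act m x w) = c x → act m x w = x
  tg : ∀ j, 2 * t j + R ≤ g j
  P2 : ∀ j, Girth m (X j) (g j)
  P3 : ∀ j, ∑ x ∈ X j, defi m x ≤ η * (X j).card
  P4 : ∀ (x y : U) (w : List (Fin 3)), lev y < lev x → Good m x w → w.length = t (lev x) →
    ∃ u, u <+: w ∧ c (act m x u) ≠ c (act m y u)

/-- `h` is `K`-Lipschitz (and `0 ≤ K`). -/
def LipBd {M : Type*} [MetricSpace M] (K : ℝ) (h : M → ℝ) : Prop :=
  0 ≤ K ∧ ∀ x y, |h x - h y| ≤ K * dist x y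

/-- The functionals `σ x = T δ_x` obtained from a finite rank operator `T` on the free space. -/
structure Functionals (M : Type*) [MetricSpace M] (o : M) (lam : ℝ) (A : Finset M) (ε : ℝ) where
  σ : M → (M → ℝ) → ℝ
  lin : ∀ (x : M) (h₁ h₂ : M → ℝ) (K₁ K₂ a b : ℝ), LipBd K₁ h₁ → LipBd K₂ h₂ →
    σ x (fun y => a * h₁ y + b * h₂ y) = a * σ x h₁ + b * σ x h₂
  lip : ∀ (K : ℝ) (h : M → ℝ), LipBd K h → ∀ x y, |σ x h - σ y h| ≤ lam * K * dist x y
  near : ∀ (K : ℝ) (h : M → ℝ), LipBd K h → ∀ a ∈ A, |σ a h - h a| ≤ ε * K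
  tail : ∀ δ > 0, ∃ F : Finset M, ∀ (K : ℝ) (h : M → ℝ), LipBd K h → (∀ x ∈ F, h x = 0) →
    ∀ x, |σ x h| ≤ δ * K * (1 + dist x o)

end P090
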