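import Vale.Agent.P090.Labels

/-!
# P090, part 4: the contradiction
-/

namespace P090

/-! ### functionals: finite sums -/

section Fun

variable {M : Type*} [MetricSpace M] {o : M} {l : ℝ} {A : Finset M} {ε : ℝ}

theorem LipBd.mono {K K' : ℝ} {h : M → ℝ} (hh : LipBd K h) (hK : K ≤ K') : LipBd K' h :=
  ⟨hh.1.trans hK, fun x y => (hh.2 x y).trans (by gcongr)⟩

theorem LipBd.zero : LipBd 0 (fun _ : M => (0 : ℝ)) := ⟨le_rfl, fun x y => by simp⟩

theorem LipBd.lin {K K' : ℝ} {h h' : M → ℝ} (hh : LipBd K h) (hh' : LipBd K' h') (a b : ℝ) :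
    LipBd (|a| * K + |b| * K') (fun y => a * h y + b * h' y) := by
  have h1 := hh.1
  have h2 := hh'.1
  refine ⟨by positivity, fun x y => ?_⟩
  have h3 := hh.2 x y
  have h4 := hh'.2 x y
  calc |a * h x + b * h' x - (a * h y + b * h' y)|
      = |a * (h x - h y) + b * (h' x - h' y)| := by congr 1; ring
    _ ≤ |a * (h x - h y)| + |b * (h' x - h' y)| := abs_add_le _ _
    _ = |a| * |h x - h y| + |b| * |h' x - h' y| := by rw [abs_mul, abs_mul]
    _ ≤ |a| * (K * dist x y) + |b| * (K' * dist x y) := by gcongr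
    _ = _ := by ring

theorem LipBd.sum {ι : Type*} {K : ℝ} (s : Finset ι) (a : ι → ℝ) (h : ι → M → ℝ)
    (hh : ∀ k ∈ s, LipBd K (h k)) : ∃ K', LipBd K' (fun y => ∑ k ∈ s, a k * h k y) := by
  classical
  induction s using Finset.induction_on with
  | empty => exact ⟨0, by simpa using LipBd.zero⟩
  | insert k s hk ih =>
    obtain ⟨K', hK'⟩ := ih fun k' hk' => hh k' (Finset.mem_insert_of_mem hk')
    have h1 := (hh k (Finset.mem_insert_self k s)).lin hK' (a k) 1
    have h2 : (fun y => ∑ k ∈ insert k s, a k * h k y)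
        = (fun y => a k * h k y + 1 * ∑ k ∈ s, a k * h k y) := by
      funext y
      rw [Finset.sum_insert hk, one_mul]
    rw [h2]
    exact ⟨_, h1⟩

theorem Functionals.zero (Φ : Functionals M o l A ε) (x : M) : Φ.σ x (fun _ => 0) = 0 := by
  have h := Φ.lin x (fun _ => 0) (fun _ => 0) 0 0 0 0 LipBd.zero LipBd.zero
  simpa using h

theorem Functionals.sum {ι : Type*} {K : ℝ} (Φ : Functionals M o l A ε) (x : M) (s : Finset ι)
    (a : ι → ℝ) (h : ι → M → ℝ) (hh : ∀ k ∈ s, LipBd K (h k)) :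
    Φ.σ x (fun y => ∑ k ∈ s, a k * h k y) = ∑ k ∈ s, a k * Φ.σ x (h k) := by
  classical
  induction s using Finset.induction_on with
  | empty => simpa using Φ.zero x
  | insert k s hk ih =>
    have hs : ∀ k' ∈ s, LipBd K (h k') := fun k' hk' => hh k' (Finset.mem_insert_of_mem hk')
    obtain ⟨K', hK'⟩ := LipBd.sum s a h hs
    have h2 : (fun y => ∑ k ∈ insert k s, a k * h k y)
        = (fun y => a k * h k y + 1 * ∑ k ∈ s, a k * h k y) := by
      funext y
      rw [Finset.sum_insert hk, one_mul]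
    rw [h2, Φ.lin x _ _ _ _ (a k) 1 (hh k (Finset.mem_insert_self k s)) hK', ih hs,
      Finset.sum_insert hk, one_mul]

theorem Functionals.sub (Φ : Functionals M o l A ε) (x : M) {K K' : ℝ} {h h' : M → ℝ}
    (hh : LipBd K h) (hh' : LipBd K' h') :
    Φ.σ x (fun y => h y - h' y) = Φ.σ x h - Φ.σ x h' := by
  have h1 := Φ.lin x h h' K K' 1 (-1) hh hh'
  have h2 : (fun y => 1 * h y + -1 * h' y) = fun y => h y - h' y := by
    funext y; ring
  rw [h2] at h1
  rw [h1]; ring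

end Fun

/-! ### the space -/

variable {R : ℕ} {η : ℝ} (S : Sys R η) (T : ℕ)

/-- the pseudo-metric on patterns -/
noncomputable def Sys.ell (p q : S.MM T) : ℝ :=
  ⨆ x : S.U, |S.Fn T (fun _ _ => 1) x p - S.Fn T (fun _ _ => 1) x q| * (T / 2)

variable {S T}

theorem WInv_one : WInv (S := S) (T := T) (fun _ _ => 1) :=
  ⟨fun _ _ => by simp, fun _ _ _ _ _ => rfl⟩

theorem nonempty_U : Nonempty S.U := ⟨(S.neX 0).choose⟩

section

variable (hT : 0 < T) (hR : 2 * T + 2 ≤ R)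

include hT hR

theorem ell_bound (p q : S.MM T) (x : S.U) :
    |S.Fn T (fun _ _ => 1) x p - S.Fn T (fun _ _ => 1) x q| * (T / 2) ≤ T := by
  have hT' : (0 : ℝ) < T := by exact_mod_cast hT
  have h1 := Fn_le hT (WInv_one (S := S) (T := T)) (by omega) x p
  have h2 := Fn_le hT (WInv_one (S := S) (T := T)) (by omega) x q
  have h3 := abs_sub (S.Fn T (fun _ _ => 1) x p) (S.Fn T (fun _ _ => 1) x q)
  calc _ ≤ (1 + 1) * ((T : ℝ) / 2) := by gcongr; linarith
    _ = T := by ring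

theorem ell_bdd (p q : S.MM T) : BddAbove (Set.range fun x : S.U =>
    |S.Fn T (fun _ _ => 1) x p - S.Fn T (fun _ _ => 1) x q| * ((T : ℝ) / 2)) :=
  ⟨T, by rintro _ ⟨x, rfl⟩; exact ell_bound hT hR p q x⟩

theorem le_ell (p q : S.MM T) (x : S.U) :
    |S.Fn T (fun _ _ => 1) x p - S.Fn T (fun _ _ => 1) x q| * (T / 2) ≤ S.ell T p q :=
  le_ciSup (ell_bdd hT hR p q) x

theorem metricData {r : ℝ} (hr : 1 ≤ r) :
    MetricData (S.mm T) (S.ell T) r T (⌈r⌉₊ + T) where
  inv i x := by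
    rcases x with a | y
    · rfl
    · simp [Sys.mm, S.inv]
  self p := by
    have := nonempty_U (S := S)
    simp [Sys.ell]
  symm p q := by
    unfold Sys.ell
    simp only [abs_sub_comm]
  tri p q s := by
    have := nonempty_U (S := S)
    refine ciSup_le fun x => ?_
    have h1 := le_ell hT hR p q x
    have h2 := le_ell hT hR q s x
    have h3 := abs_sub_le (S.Fn T (fun _ _ => 1) x p) (S.Fn T (fun _ _ => 1) x q)
      (S.Fn T (fun _ _ => 1) x s)
    calc _ ≤ (|S.Fn T (fun _ _ => 1) x p - S.Fn T (fun _ _ => 1) x q| +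
        |S.Fn T (fun _ _ => 1) x q - S.Fn T (fun _ _ => 1) x s|) * ((T : ℝ) / 2) := by gcongr
      _ ≤ _ := by rw [add_mul]; exact add_le_add h1 h2
  nonneg p q := Real.iSup_nonneg fun x => by positivity
  le p q := by
    have := nonempty_U (S := S)
    exact ciSup_le fun x => ell_bound hT hR p q x
  step i p := by
    have := nonempty_U (S := S)
    have hT' : (0 : ℝ) < T := by exact_mod_cast hT
    refine ciSup_le fun x => ?_
    have h1 := Fn_step_right hT (WInv_one (S := S) (T := T)) hR i x p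
    calc _ ≤ 2 / (T : ℝ) * (T / 2) := by gcongr
      _ = 1 := by field_simp
  one_le := hr
  cap := by
    push_cast
    have := Nat.le_ceil r
    linarith

end

/-! ### the main argument -/

open Classical in
/-- membership in the lower part -/
noncomputable def Sys.chi (S : Sys R η) (T : ℕ) (j : ℕ) : S.MM T → ℝ
  | .inl _ => 1
  | .inr y => if S.lev y < j then 1 else 0

theorem chi_mm (j : ℕ) (i : Fin 3) (p : S.MM T) : S.chi T j (S.mm T i p) = S.chi T j p := by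
  rcases p with a | y
  · rfl
  · simp [Sys.chi, Sys.mm, S.levm]

theorem chi_cases (j : ℕ) (p : S.MM T) : S.chi T j p = 1 ∨ S.chi T j p = 0 := by
  classical
  rcases p with a | y
  · exact Or.inl rfl
  · by_cases h : S.lev y < j
    · left; simp [Sys.chi, h]
    · right; simp [Sys.chi, h]

theorem chi_lev {j : ℕ} {p : S.MM T} (h : S.chi T j p ≠ 0) (y : S.U) (hy : p = .inr y) :
    S.lev y < j := by
  classical
  subst hy
  by_contra h1
  exact h (by simp [Sys.chi, h1])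

/-- weights built from a function of the point and a function of the label -/
noncomputable def Sys.Wt (S : Sys R η) (T : ℕ) (χ : S.MM T → ℝ) (θ : S.Lab T → ℝ) :
    S.U → S.MM T → ℝ := fun z p => χ p * θ (S.lab T z p)

theorem WInv_Wt {χ : S.MM T → ℝ} {θ : S.Lab T → ℝ} (h1 : ∀ p, |χ p| ≤ 1)
    (h2 : ∀ i p, χ (S.mm T i p) = χ p) (h3 : ∀ k, |θ k| ≤ 1) : WInv (S.Wt T χ θ) where
  le z p := by
    unfold Sys.Wt
    rw [abs_mul]
    calc |χ p| * |θ (S.lab T z p)| ≤ 1 * 1 :=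
          mul_le_mul (h1 p) (h3 _) (abs_nonneg _) zero_le_one
      _ = 1 := one_mul 1
  inv i z y h h' := by
    unfold Sys.Wt
    rw [lab_inv i z y h h']
    congr 1
    exact h2 i (.inr y)

open Classical in
/-- the relevant labels -/
noncomputable def Sys.labs (S : Sys R η) (T : ℕ) (j : ℕ) : Finset (S.Lab T) :=
  haveI := Fintype.ofFinite (S.A T)
  ((S.X j) ×ˢ ((Finset.univ : Finset (S.A T)).disjSum ((Finset.range j).biUnion S.X))).image
    (fun zp => S.lab T zp.1 zp.2)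

theorem mem_labs {j : ℕ} {z : S.U} {p : S.MM T} (hz : S.lev z = j) (hp : S.chi T j p ≠ 0) :
    S.lab T z p ∈ S.labs T j := by
  classical
  unfold Sys.labs
  refine Finset.mem_image.2 ⟨(z, p), ?_, rfl⟩
  rw [Finset.mem_product]
  refine ⟨(S.memX _ _).2 hz, ?_⟩
  rcases p with a | y
  · simp
  · have := chi_lev hp y rfl
    simp only [Finset.inr_mem_disjSum, Finset.mem_biUnion, Finset.mem_range]
    exact ⟨S.lev y, this, (S.memX _ _).2 rfl⟩

open Classical in
theorem Fn_Wt (j : ℕ) (θ : S.Lab T → ℝ) {x : S.U} (hx : S.lev x = j) (p : S.MM T) :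
    S.Fn T (S.Wt T (S.chi T j) θ) x p = ∑ k ∈ S.labs T j,
      θ k * S.Fn T (S.Wt T (S.chi T j) (fun k' => if k' = k then 1 else 0)) x p := by
  unfold Sys.Fn
  simp_rw [Finset.mul_sum]
  rw [Finset.sum_comm]
  refine Finset.sum_congr rfl fun z hz => ?_
  have hz' : S.lev z = j := by rw [← hx]; exact (S.memX _ _).1 hz
  unfold Sys.Wt
  by_cases hp : S.chi T j p = 0
  · simp [hp]
  · rw [Finset.sum_eq_single_of_mem (S.lab T z p) (mem_labs hz' hp)]
    · simp only [if_true]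
      ring
    · intro k _ hk
      simp [hk.symm]

section main

variable (hT : 0 < T) (hR : 2 * T + 4 ≤ R) [MetricSpace (S.MM T)] {r : ℝ} (hr : 1 ≤ r)
  (hd : ∀ p q : S.MM T, dist p q = dd (S.mm T) (S.ell T) r (⌈r⌉₊ + T) p q)
  {l : ℝ} (hl : 1 ≤ l) {o : S.MM T} {A : Finset (S.MM T)} (hA : ∀ a, .inl a ∈ A)
  (Φ : Functionals (S.MM T) o l A 1)

include hT hR hr hd

theorem lipBd_of (f : S.MM T → ℝ) {B s' K' : ℝ} (hB : ∀ x, |f x| ≤ B)
    (hs : ∀ i x, |f x - f (S.mm T i x)| ≤ s') (h1 : s' ≤ K') (h2 : 2 * B ≤ K' * r)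
    (hs0 : 0 ≤ s') : LipBd K' f :=
  ⟨hs0.trans h1, fun x y => by
    rw [hd]
    exact (metricData hT (by omega) hr).lipCheck f hB hs h1 h2 hs0 x y⟩

theorem Fn_lip (hrT : r ≤ T) {W : S.U → S.MM T → ℝ} (hW : WInv W) (x : S.U) :
    LipBd (2 / r) (S.Fn T W x) := by
  have hr0 : 0 < r := by linarith
  refine lipBd_of hT hR hr hd _ (B := 1) (s' := 2 / T) (Fn_le hT hW (by omega) x)
    (fun i p => Fn_step_right hT hW (by omega) i x p) ?_ ?_ (by positivity)
  · gcongr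
  · field_simp
    norm_num

theorem diff_lip {W : S.U → S.MM T → ℝ} (hW : WInv W) (x : S.U) (i : Fin 3) :
    LipBd (4 / T) (fun p => S.Fn T W x p - S.Fn T W (S.m i x) p) := by
  have hT' : (0 : ℝ) < T := by exact_mod_cast hT
  refine lipBd_of hT hR hr hd _ (B := 1 / T) (s' := 4 / T)
    (fun p => Fn_step_left hT hW (by omega) i x p) ?_ le_rfl ?_ (by positivity)
  · intro i' p
    have h1 := Fn_step_right hT hW (by omega) i' x p
    have h2 := Fn_step_right hT hW (by omega) i' (S.m i x) p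
    calc |S.Fn T W x p - S.Fn T W (S.m i x) p
          - (S.Fn T W x (S.mm T i' p) - S.Fn T W (S.m i x) (S.mm T i' p))|
        = |(S.Fn T W x p - S.Fn T W x (S.mm T i' p))
          - (S.Fn T W (S.m i x) p - S.Fn T W (S.m i x) (S.mm T i' p))| := by congr 1; ring
      _ ≤ |S.Fn T W x p - S.Fn T W x (S.mm T i' p)|
          + |S.Fn T W (S.m i x) p - S.Fn T W (S.m i x) (S.mm T i' p)| := abs_sub _ _
      _ ≤ 2 / T + 2 / T := add_le_add h1 h2
      _ = 4 / T := by ring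
  · calc 2 * (1 / (T : ℝ)) = 2 / T * 1 := by ring
      _ ≤ 4 / T * r := by gcongr; norm_num

theorem ell_le_dist (p q : S.MM T) : S.ell T p q ≤ dist p q := by
  rw [hd]
  have h := metricData hT (S := S) (T := T) (by omega) hr
  refine le_min (h.ell_le_dN p q) ?_
  linarith

theorem Fn1_lip (x : S.U) : LipBd (2 / T) (S.Fn T (fun _ _ => 1) x) := by
  have hT' : (0 : ℝ) < T := by exact_mod_cast hT
  refine ⟨by positivity, fun p q => ?_⟩
  have h1 := le_ell hT (by omega) p q x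
  have h2 := ell_le_dist hT hR hr hd p q
  calc |S.Fn T (fun _ _ => 1) x p - S.Fn T (fun _ _ => 1) x q|
      = 2 / T * (|S.Fn T (fun _ _ => 1) x p - S.Fn T (fun _ _ => 1) x q| * (T / 2)) := by
        field_simp
    _ ≤ 2 / T * dist p q := by gcongr; exact h1.trans h2

omit hT hR hr in
theorem dist_pat (x : S.U) : dist (.inr x : S.MM T) (.inl (S.pat T x)) ≤ r := by
  have := nonempty_U (S := S)
  rw [hd]
  have h0 : S.ell T (.inr x) (.inl (S.pat T x)) = 0 := by
    unfold Sys.ell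
    have : ∀ x' : S.U, |S.Fn T (fun _ _ => 1) x' (.inr x)
        - S.Fn T (fun _ _ => 1) x' (.inl (S.pat T x))| * ((T : ℝ) / 2) = 0 := by
      intro x'
      have : S.Fn T (fun _ _ => 1) x' (.inr x)
        = S.Fn T (fun _ _ => 1) x' (.inl (S.pat T x)) := rfl
      rw [this, sub_self, abs_zero, zero_mul]
    simp [this]
  refine (min_le_right _ _).trans ?_
  rw [h0, add_zero]

theorem dist_step (x : S.U) (i : Fin 3) : dist (.inr x : S.MM T) (.inr (S.m i x)) ≤ 1 := by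
  rw [hd]
  exact (metricData hT (by omega) hr).dd_step i (.inr x)

theorem dist_le (p q : S.MM T) : dist p q ≤ r + T := by
  rw [hd]
  exact (metricData hT (by omega) hr).dd_le p q

include hl hA

theorem sigma_bound {K B : ℝ} {f : S.MM T → ℝ} (hf : LipBd K f) (x : S.U)
    (hB : |f (.inl (S.pat T x))| ≤ B) : |Φ.σ (.inr x) f| ≤ l * K * r + K + B := by
  have h1 := Φ.lip K f hf (.inr x) (.inl (S.pat T x))
  have h2 := Φ.near K f hf _ (hA (S.pat T x))
  have h3 := dist_pat hd x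
  have hK := hf.1
  have h4 : l * K * dist (.inr x : S.MM T) (.inl (S.pat T x)) ≤ l * K * r := by gcongr
  have h5 : |Φ.σ (.inr x) f| ≤ |Φ.σ (.inr x) f - Φ.σ (.inl (S.pat T x)) f|
      + |Φ.σ (.inl (S.pat T x)) f - f (.inl (S.pat T x))| + |f (.inl (S.pat T x))| := by
    calc |Φ.σ (.inr x) f| = |(Φ.σ (.inr x) f - Φ.σ (.inl (S.pat T x)) f)
        + (Φ.σ (.inl (S.pat T x)) f - f (.inl (S.pat T x))) + f (.inl (S.pat T x))| := by
          congr 1; ring
      _ ≤ _ := abs_add_three _ _ _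
  linarith

theorem B1 (hrT : r ≤ T) {W : S.U → S.MM T → ℝ} (hW : WInv W) (x : S.U) :
    |Φ.σ (.inr x) (S.Fn T W x)| ≤ 2 * l + 3 := by
  have hr0 : 0 < r := by linarith
  have h1 := sigma_bound hT hR hr hd hl hA Φ (Fn_lip hT hR hr hd hrT hW x) x
    (Fn_le hT hW (by omega) x _)
  have h2 : l * (2 / r) * r = 2 * l := by field_simp
  have h3 : 2 / r ≤ 2 := by
    rw [div_le_iff₀ hr0]; linarith
  linarith

theorem B2 (hrT : r ≤ T) {W : S.U → S.MM T → ℝ} (hW : WInv W) (x : S.U) (i : Fin 3) :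
    |Φ.σ (.inr x) (S.Fn T W x) - Φ.σ (.inr (S.m i x)) (S.Fn T W (S.m i x))|
      ≤ 2 * l / r + (4 * l * r + 5) / T := by
  have hr0 : 0 < r := by linarith
  have hT' : (0 : ℝ) < T := by exact_mod_cast hT
  have hL := Fn_lip hT hR hr hd hrT hW x
  have hL' := Fn_lip hT hR hr hd hrT hW (S.m i x)
  have h1 := Φ.lip _ _ hL (.inr x) (.inr (S.m i x))
  have h2 := dist_step hT hR hr hd x i
  have h3 : l * (2 / r) * dist (.inr x : S.MM T) (.inr (S.m i x)) ≤ l * (2 / r) * 1 := by gcongr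
  have h4 := sigma_bound hT hR hr hd hl hA Φ (diff_lip hT hR hr hd hW x i) (S.m i x)
    (Fn_step_left hT hW (by omega) i x _)
  rw [Φ.sub _ hL hL'] at h4
  have h5 : |Φ.σ (.inr x) (S.Fn T W x) - Φ.σ (.inr (S.m i x)) (S.Fn T W (S.m i x))|
      ≤ |Φ.σ (.inr x) (S.Fn T W x) - Φ.σ (.inr (S.m i x)) (S.Fn T W x)|
        + |Φ.σ (.inr (S.m i x)) (S.Fn T W x) - Φ.σ (.inr (S.m i x)) (S.Fn T W (S.m i x))| :=
    abs_sub_le _ _ _
  have h6 : l * (2 / r) * 1 = 2 * l / r := by ring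
  have h7 : l * (4 / T) * r + 4 / T + 1 / T = (4 * l * r + 5) / (T : ℝ) := by ring
  linarith

theorem B3 (hrT : r ≤ T) (hs : (2 + 2 * l * r) / T ≤ 1 / 4) : ∃ j₀ : ℕ, ∀ j, j₀ ≤ j →
    ∀ x, S.lev x = j → 1 / 2 ≤ Φ.σ (.inr x) (S.Fn T (S.Wt T (S.chi T j) (fun _ => 1)) x) := by
  classical
  have hr0 : 0 < r := by linarith
  have hT' : (0 : ℝ) < T := by exact_mod_cast hT
  obtain ⟨F, hF⟩ := Φ.tail (r / (8 * (1 + r + T))) (by positivity)
  refine ⟨(F.sup fun p => Sum.elim (fun _ => 0) (fun y => S.lev y) p) + 1, fun j hj x hx => ?_⟩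
  have hFj : ∀ p ∈ F, S.chi T j p = 1 := by
    intro p hp
    rcases p with a | y
    · rfl
    · have h1 : S.lev y ≤ F.sup fun p => Sum.elim (fun _ => 0) (fun y => S.lev y) p :=
        Finset.le_sup (f := fun p : S.MM T => Sum.elim (fun _ => 0) (fun y => S.lev y) p) hp
      have h2 : S.lev y < j := by omega
      simp [Sys.chi, h2]
  -- the weight 1
  have hL1 := Fn1_lip hT hR hr hd x
  have h1 : |Φ.σ (.inr x) (S.Fn T (fun _ _ => 1) x)
      - Φ.σ (.inl (S.pat T x)) (S.Fn T (fun _ _ => 1) x)| ≤ l * (2 / T) * r := by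
    refine (Φ.lip _ _ hL1 _ _).trans ?_
    have := dist_pat hd x
    gcongr
  have h2 := Φ.near _ _ hL1 _ (hA (S.pat T x))
  rw [Fn_one_self hT (by omega) x (.inl (S.pat T x)) rfl] at h2
  -- the two parts
  have hchi : ∀ p, |S.chi T j p| ≤ 1 := by
    intro p; rcases chi_cases j p with h | h <;> rw [h] <;> norm_num
  have hW1 : WInv (S.Wt T (S.chi T j) (fun _ => 1)) :=
    WInv_Wt hchi (chi_mm j) (fun _ => by simp)
  have hW2 : WInv (S.Wt T (fun p => 1 - S.chi T j p) (fun _ => 1)) := by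
    refine WInv_Wt ?_ ?_ (fun _ => by simp)
    · intro p; rcases chi_cases j p with h | h <;> rw [h] <;> norm_num
    · intro i p; rw [chi_mm]
  have hsplit : S.Fn T (S.Wt T (fun p => 1 - S.chi T j p) (fun _ => 1)) x
      = fun p => S.Fn T (fun _ _ => 1) x p - S.Fn T (S.Wt T (S.chi T j) (fun _ => 1)) x p := by
    funext p
    unfold Sys.Fn Sys.Wt
    rw [← Finset.sum_sub_distrib]
    refine Finset.sum_congr rfl fun z _ => ?_
    ring
  have h3 := hF (2 / r) _ (Fn_lip hT hR hr hd hrT hW2 x) (by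
    intro p hp
    unfold Sys.Fn Sys.Wt
    simp [hFj p hp]) (.inr x)
  have h4 : |Φ.σ (.inr x) (S.Fn T (S.Wt T (fun p => 1 - S.chi T j p) (fun _ => 1)) x)| ≤ 1 / 4 := by
    refine h3.trans ?_
    have h5 := dist_le hT hR hr hd (.inr x) o
    calc r / (8 * (1 + r + T)) * (2 / r) * (1 + dist (.inr x) o)
        ≤ r / (8 * (1 + r + T)) * (2 / r) * (1 + (r + T)) := by gcongr
      _ = 1 / 4 := by field_simp; ring
  rw [hsplit, Φ.sub _ hL1 (Fn_lip hT hR hr hd hrT hW1 x)] at h4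
  have h5 : l * (2 / T) * r + 1 * (2 / T) = (2 + 2 * l * r) / (T : ℝ) := by ring
  rw [abs_le] at h1 h2 h4
  linarith [h1.1, h1.2, h2.1, h2.2, h4.1, h4.2]

omit hR hr hd hl hA in
theorem ne_zero_data {j : ℕ} {k : S.Lab T} {θ : S.Lab T → ℝ} (hθ : ∀ k', θ k' ≠ 0 → k' = k)
    {x : S.U} (hx : S.lev x = j)
    (h : Φ.σ (.inr x) (S.Fn T (S.Wt T (S.chi T j) θ) x) ≠ 0) :
    ∃ z p, S.lev z = j ∧ (∃ w : List (Fin 3), w.length ≤ T ∧ act S.m x w = z) ∧
      S.chi T j p ≠ 0 ∧ S.lab T z p = k ∧ S.Agr T 1 z (S.pt T p) := by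
  by_contra hcon
  apply h
  have h0 : S.Fn T (S.Wt T (S.chi T j) θ) x = fun _ => 0 := by
    funext p
    unfold Sys.Fn
    refine Finset.sum_eq_zero fun z hz => ?_
    by_contra h1
    refine hcon ⟨z, p, ?_, e_ne_zero hT (left_ne_zero_of_mul h1), ?_, ?_,
      zeta_ne_zero (right_ne_zero_of_mul (right_ne_zero_of_mul h1))⟩
    · rw [← hx]; exact (S.memX _ _).1 hz
    · exact left_ne_zero_of_mul (left_ne_zero_of_mul (right_ne_zero_of_mul h1))
    · exact hθ _ (right_ne_zero_of_mul (left_ne_zero_of_mul (right_ne_zero_of_mul h1)))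
  rw [h0]
  exact Φ.zero _

omit hr hd hl hA in
theorem support_ball (j : ℕ) (k : S.Lab T) {θ : S.Lab T → ℝ} (hθ : ∀ k', θ k' ≠ 0 → k' = k) :
    ∃ z0 ∈ S.X j, ∀ x ∈ S.X j,
      Φ.σ (.inr x) (S.Fn T (S.Wt T (S.chi T j) θ) x) ≠ 0 →
        ∃ w : List (Fin 3), w.length ≤ S.t j + T ∧ act S.m z0 w = x := by
  by_cases h : ∃ x1 ∈ S.X j, Φ.σ (.inr x1) (S.Fn T (S.Wt T (S.chi T j) θ) x1) ≠ 0
  · obtain ⟨x1, hx1, h1⟩ := h
    obtain ⟨z1, p1, hz1, -, hp1, hk1, -⟩ := ne_zero_data hT Φ hθ ((S.memX _ _).1 hx1) h1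
    refine ⟨z1, (S.memX _ _).2 hz1, fun x hx hne => ?_⟩
    obtain ⟨z, p, hz, ⟨w', hw', hwz⟩, hp, hk, hagr⟩ := ne_zero_data hT Φ hθ ((S.memX _ _).1 hx) hne
    obtain ⟨w, hw, hwz'⟩ := same_label hT (by omega) hz1 (fun y hy => chi_lev hp1 y hy) hagr
      (hk1.trans hk.symm)
    refine ⟨w ++ w'.reverse, by simp; omega, ?_⟩
    rw [act_append, hwz', ← hwz, act_reverse S.inv]
  · push Not at h
    obtain ⟨z0, hz0⟩ := S.neX j
    exact ⟨z0, hz0, fun x hx hne => absurd (h x hx) hne⟩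

include Φ in
theorem contradiction (hr32 : r = 32 * l) (hTl : 16 * (128 * l ^ 2 + 5) ≤ T)
    (hη : η = 1 / (8 * (2 * l + 3))) : False := by
  classical
  have hT' : (0 : ℝ) < T := by exact_mod_cast hT
  have hr0 : 0 < r := by linarith
  have hrT : r ≤ T := by nlinarith
  have hs : (2 + 2 * l * r) / T ≤ 1 / 4 := by
    rw [div_le_iff₀ hT', hr32]; nlinarith
  have he : 2 * l / r + (4 * l * r + 5) / T ≤ 1 / 8 := by
    have h1 : 2 * l / r = 1 / 16 := by rw [hr32]; field_simp; norm_num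
    have h2 : (4 * l * r + 5) / T ≤ 1 / 16 := by
      rw [div_le_iff₀ hT', hr32]; nlinarith
    linarith
  obtain ⟨j, hj⟩ := B3 hT hR hr hd hl hA Φ hrT hs
  have hj := hj j le_rfl
  set δ : S.Lab T → S.Lab T → ℝ := fun k k' => if k' = k then 1 else 0 with hδ
  set Mt : S.Lab T → S.U → ℝ :=
    fun k x => Φ.σ (.inr x) (S.Fn T (S.Wt T (S.chi T j) (δ k)) x) with hMt
  have hchi : ∀ p, |S.chi T j p| ≤ 1 := by
    intro p; rcases chi_cases j p with h | h <;> rw [h] <;> norm_num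
  have hW : ∀ θ : S.Lab T → ℝ, (∀ k, |θ k| ≤ 1) → WInv (S.Wt T (S.chi T j) θ) :=
    fun θ hθ => WInv_Wt hchi (chi_mm j) hθ
  have hδ1 : ∀ k k', |δ k k'| ≤ 1 := by
    intro k k'
    simp only [hδ]
    split_ifs <;> norm_num
  have hsum : ∀ (θ : S.Lab T → ℝ) (x : S.U), S.lev x = j →
      Φ.σ (.inr x) (S.Fn T (S.Wt T (S.chi T j) θ) x) = ∑ k ∈ S.labs T j, θ k * Mt k x := by
    intro θ x hx
    rw [← Φ.sum (K := 2 / r) (.inr x) (S.labs T j) θ
      (fun k => S.Fn T (S.Wt T (S.chi T j) (δ k)) x)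
      (fun k _ => Fn_lip hT hR hr hd hrT (hW _ (hδ1 k)) x)]
    congr 1
    funext p
    exact Fn_Wt j θ hx p
  have habs : ∀ a : ℝ, (if 0 ≤ a then (1 : ℝ) else -1) * a = |a| := by
    intro a
    split_ifs with h
    · rw [one_mul, abs_of_nonneg h]
    · rw [abs_of_neg (not_le.1 h)]; ring
  have hθ1 : ∀ a : ℝ, |if 0 ≤ a then (1 : ℝ) else -1| ≤ 1 := by
    intro a
    split_ifs <;> norm_num
  have S2 : ∀ x, S.lev x = j → ∑ k ∈ S.labs T j, |Mt k x| ≤ 2 * l + 3 := by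
    intro x hx
    have h1 := B1 hT hR hr hd hl hA Φ hrT
      (hW (fun k => if 0 ≤ Mt k x then 1 else -1) (fun k => hθ1 _)) x
    rw [hsum _ x hx] at h1
    simp_rw [habs] at h1
    exact (le_abs_self _).trans h1
  have S3 : ∀ x, S.lev x = j → ∀ i,
      ∑ k ∈ S.labs T j, |Mt k x - Mt k (S.m i x)| ≤ 1 / 8 := by
    intro x hx i
    have h1 := B2 hT hR hr hd hl hA Φ hrT
      (hW (fun k => if 0 ≤ Mt k x - Mt k (S.m i x) then 1 else -1) (fun k => hθ1 _)) x i
    rw [hsum _ x hx, hsum _ (S.m i x) ((S.levm i x).trans hx), ← Finset.sum_sub_distrib] at h1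
    simp_rw [← mul_sub, habs] at h1
    exact ((le_abs_self _).trans h1).trans he
  have S4 : ∀ x, S.lev x = j → 1 / 2 ≤ ∑ k ∈ S.labs T j, |Mt k x| := by
    intro x hx
    have h1 := hj x hx
    rw [hsum _ x hx] at h1
    refine h1.trans (Finset.sum_le_sum fun k _ => ?_)
    rw [one_mul]
    exact le_abs_self _
  have hX : ∀ x ∈ S.X j, ∀ i, S.m i x ∈ S.X j := by
    intro x hx i
    rw [S.memX] at hx ⊢
    rw [S.levm, hx]
  have hiso : ∀ k, 2 * ∑ x ∈ S.X j, (1 - defi S.m x) * |Mt k x|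
      ≤ ∑ x ∈ S.X j, ∑ i, |(|Mt k x|) - (|Mt k (S.m i x)|)| := by
    intro k
    obtain ⟨z0, hz0, hsupp⟩ := support_ball hT hR Φ j k (θ := δ k) (by
      intro k' hk'
      by_contra h
      exact hk' (by simp [hδ, h]))
    refine iso S.inv hX (S.P2 j) (q := S.t j + T) ?_ z0 hz0 (fun x => |Mt k x|)
      (fun x => abs_nonneg _) ?_
    · have := S.tg j
      omega
    · intro x hx h
      exact hsupp x hx (abs_ne_zero.1 h)
  have h1 : ∑ k ∈ S.labs T j, 2 * ∑ x ∈ S.X j, (1 - defi S.m x) * |Mt k x|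
      ≤ ∑ x ∈ S.X j, ∑ i : Fin 3, (1 / 8 : ℝ) := by
    calc ∑ k ∈ S.labs T j, 2 * ∑ x ∈ S.X j, (1 - defi S.m x) * |Mt k x|
        ≤ ∑ k ∈ S.labs T j, ∑ x ∈ S.X j, ∑ i, |(|Mt k x|) - (|Mt k (S.m i x)|)| :=
          Finset.sum_le_sum fun k _ => hiso k
      _ = ∑ x ∈ S.X j, ∑ i, ∑ k ∈ S.labs T j, |(|Mt k x|) - (|Mt k (S.m i x)|)| := by
          rw [Finset.sum_comm]
          refine Finset.sum_congr rfl fun x _ => ?_
          rw [Finset.sum_comm]
      _ ≤ ∑ x ∈ S.X j, ∑ i : Fin 3, (1 / 8 : ℝ) := by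
          refine Finset.sum_le_sum fun x hx => Finset.sum_le_sum fun i _ => ?_
          refine (Finset.sum_le_sum fun k _ => abs_abs_sub_abs_le_abs_sub _ _).trans ?_
          exact S3 x ((S.memX _ _).1 hx) i
  have h2 : ∑ k ∈ S.labs T j, 2 * ∑ x ∈ S.X j, (1 - defi S.m x) * |Mt k x|
      = ∑ x ∈ S.X j, 2 * ((1 - defi S.m x) * ∑ k ∈ S.labs T j, |Mt k x|) := by
    simp_rw [Finset.mul_sum]
    rw [Finset.sum_comm]
  have hdef : ∀ x, 0 ≤ defi S.m x := by
    intro x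
    unfold defi
    exact Finset.sum_nonneg fun i _ => by split_ifs <;> norm_num
  have h3 : ∑ x ∈ S.X j, (1 - 2 * (2 * l + 3) * defi S.m x)
      ≤ ∑ x ∈ S.X j, 2 * ((1 - defi S.m x) * ∑ k ∈ S.labs T j, |Mt k x|) := by
    refine Finset.sum_le_sum fun x hx => ?_
    have h4 := S2 x ((S.memX _ _).1 hx)
    have h5 := S4 x ((S.memX _ _).1 hx)
    have h6 := hdef x
    nlinarith [mul_le_mul_of_nonneg_left h4 h6]
  have h4 := S.P3 j
  have hcard : (0 : ℝ) < (S.X j).card := by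
    exact_mod_cast Finset.card_pos.2 (S.neX j)
  rw [h2] at h1
  have h5 := h3.trans h1
  rw [Finset.sum_sub_distrib, ← Finset.mul_sum] at h5
  simp only [Finset.sum_const, Finset.card_univ, Fintype.card_fin, nsmul_eq_mul, mul_one] at h5
  have hη' : 2 * (2 * l + 3) * η = 1 / 4 := by
    have : ∀ e : ℝ, e = 1 / (8 * (2 * l + 3)) → 2 * (2 * l + 3) * e = 1 / 4 := by
      intro e he
      rw [he]
      field_simp
      norm_num
    exact this η hη
  have h6 : 2 * (2 * l + 3) * ∑ x ∈ S.X j, defi S.m x ≤ 1 / 4 * (S.X j).card := by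
    calc 2 * (2 * l + 3) * ∑ x ∈ S.X j, defi S.m x
        ≤ 2 * (2 * l + 3) * (η * (S.X j).card) := by gcongr
      _ = 1 / 4 * (S.X j).card := by linear_combination ((S.X j).card : ℝ) * hη'

  norm_num at h5
  linarith

end main

theorem Functionals.mono {M : Type*} [MetricSpace M] {o : M} {l l' : ℝ} {A : Finset M} {ε : ℝ}
    (Φ : Functionals M o l A ε) (h : l ≤ l') : Nonempty (Functionals M o l' A ε) :=
  ⟨{ σ := Φ.σ
     lin := Φ.lin
     lip := fun K f hf x y => (Φ.lip K f hf x y).trans (by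
      have := hf.1
      gcongr)
     near := Φ.near
     tail := Φ.tail }⟩

instance Sys.countable_A (S : Sys R η) (T : ℕ) : Countable (S.A T) := inferInstance

/-- For every `lam` there is a countable, bounded, 1-separated metric space without functionals. -/
theorem exists_bad (hsys : ∀ (R : ℕ) (η : ℝ), 0 < η → Nonempty (Sys R η)) (lam : ℝ) :
    ∃ (M : Type) (_ : MetricSpace M), Countable M ∧ Nonempty M ∧
      (∀ x y : M, x ≠ y → 1 ≤ dist x y) ∧ (∃ D : ℝ, ∀ x y : M, dist x y ≤ D) ∧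
      ∀ o : M, ∃ (A : Finset M) (ε : ℝ), 0 < ε ∧ IsEmpty (Functionals M o lam A ε) := by
  classical
  set l : ℝ := max lam 1 with hl
  have hl1 : 1 ≤ l := le_max_right _ _
  obtain ⟨T, hTl⟩ := exists_nat_ge (16 * (128 * l ^ 2 + 5))
  have hT : 0 < T := by
    have : (0 : ℝ) < T := lt_of_lt_of_le (by positivity) hTl
    exact_mod_cast this
  obtain ⟨S⟩ := hsys (2 * T + 4) (1 / (8 * (2 * l + 3))) (by positivity)
  have hr : 1 ≤ 32 * l := by linarith
  have hmd := metricData (S := S) hT (by omega) hr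
  let inst : MetricSpace (S.MM T) := hmd.metricSpace
  have := S.cntU
  have hne := nonempty_U (S := S)
  refine ⟨S.MM T, inst, inferInstance, ⟨.inr hne.some⟩, fun x y hxy => hmd.sep hxy,
    ⟨_, fun x y => hmd.dd_le x y⟩, fun o => ?_⟩
  have := Fintype.ofFinite (S.A T)
  refine ⟨Finset.univ.map ⟨Sum.inl, Sum.inl_injective⟩, 1, one_pos, ⟨fun Φ => ?_⟩⟩
  obtain ⟨Φ'⟩ := Φ.mono (le_max_left lam 1)
  exact contradiction hT le_rfl hr (fun p q => rfl) hl1 (by simp) Φ' rfl hTl rfl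

end P090
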