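import Vale.Agent.P090.Basic

/-!
# P090, part 2: existence of the combinatorial system
-/

namespace P090

section aux

variable {U : Type*}

theorem ex_act_append (m : Fin 3 → U → U) (x : U) (u v : List (Fin 3)) :
    act m x (u ++ v) = act m (act m x u) v := by
  induction u generalizing x with
  | nil => rfl
  | cons i u ih => exact ih (m i x)

theorem ex_act_reverse {m : Fin 3 → U → U} (hinv : ∀ i x, m i (m i x) = x) (x : U)
    (w : List (Fin 3)) : act m (act m x w) w.reverse = x := by
  induction w generalizing x with
  | nil => rfl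
  | cons i w ih =>
    rw [List.reverse_cons, ex_act_append]
    show act m (act m (act m (m i x) w) w.reverse) [i] = x
    rw [ih]
    exact hinv i x

/-- the modified system: `u` and `v` are joined by the letter `i`. -/
noncomputable def exJoin (m : Fin 3 → U → U) (i : Fin 3) (u v : U) : Fin 3 → U → U := by
  classical exact fun k x => if k = i ∧ x = u then v else if k = i ∧ x = v then u else m k x

theorem exJoin_other {m : Fin 3 → U → U} {i : Fin 3} {u v : U} {k : Fin 3} {x : U}
    (h : k ≠ i ∨ (x ≠ u ∧ x ≠ v)) : exJoin m i u v k x = m k x := by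
  classical
  unfold exJoin
  rcases h with h | ⟨h1, h2⟩
  · simp [h]
  · simp [h1, h2]

theorem exJoin_left (m : Fin 3 → U → U) (i : Fin 3) (u v : U) : exJoin m i u v i u = v := by
  classical
  simp [exJoin]

theorem exJoin_right (m : Fin 3 → U → U) (i : Fin 3) (u v : U) : exJoin m i u v i v = u := by
  classical
  unfold exJoin
  by_cases h : v = u
  · simp [h]
  · simp [h]

theorem exJoin_inv {m : Fin 3 → U → U} (hinv : ∀ i x, m i (m i x) = x) {i : Fin 3} {u v : U}
    (hu : m i u = u) (hv : m i v = v) (k : Fin 3) (x : U) :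
    exJoin m i u v k (exJoin m i u v k x) = x := by
  by_cases hk : k = i
  · subst hk
    by_cases h1 : x = u
    · subst h1
      rw [exJoin_left, exJoin_right]
    · by_cases h2 : x = v
      · subst h2
        rw [exJoin_right, exJoin_left]
      · rw [exJoin_other (k := k) (x := x) (Or.inr ⟨h1, h2⟩)]
        rw [exJoin_other]
        · exact hinv k x
        · right
          constructor
          · intro h
            apply h1
            have := hinv k x
            rw [h, hu] at this
            exact this.symm
          · intro h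
            apply h2
            have := hinv k x
            rw [h, hv] at this
            exact this.symm
  · rw [exJoin_other (Or.inl hk), exJoin_other (Or.inl hk)]
    exact hinv k x

theorem ex_first_cross (m : Fin 3 → U → U) (i : Fin 3) (u v : U) (w : List (Fin 3)) (x : U)
    (hw : Good (exJoin m i u v) x w) :
    (Good m x w ∧ act m x w = act (exJoin m i u v) x w) ∨
    ∃ s r, w = s ++ i :: r ∧ Good m x s ∧ (act m x s = u ∨ act m x s = v) ∧
      Good (exJoin m i u v) (exJoin m i u v i (act m x s)) r ∧ r.head? ≠ some i ∧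
      act (exJoin m i u v) x w = act (exJoin m i u v) (exJoin m i u v i (act m x s)) r := by
  induction w generalizing x with
  | nil => left; exact ⟨trivial, rfl⟩
  | cons k w ih =>
    obtain ⟨h1, h2, h3⟩ := hw
    by_cases hc : k = i ∧ (x = u ∨ x = v)
    · obtain ⟨rfl, hx⟩ := hc
      right
      refine ⟨[], w, rfl, trivial, hx, h3, h2, rfl⟩
    · have hj : exJoin m i u v k x = m k x := by
        apply exJoin_other
        by_cases hk : k = i
        · right
          constructor
          · intro h
            exact hc ⟨hk, Or.inl h⟩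
          · intro h
            exact hc ⟨hk, Or.inr h⟩
        · exact Or.inl hk
      rw [hj] at h1 h3
      rcases ih (m k x) h3 with ⟨h4, h5⟩ | ⟨s, r, h4, h5, h6, h7, h8, h9⟩
      · left
        refine ⟨⟨h1, h2, h4⟩, ?_⟩
        show act m (m k x) w = act (exJoin m i u v) (exJoin m i u v k x) w
        rw [hj]
        exact h5
      · right
        refine ⟨k :: s, r, by rw [h4]; rfl, ⟨h1, ?_, h5⟩, h6, h7, h8, ?_⟩
        · intro hs
          apply h2
          rw [h4]
          cases s with
          | nil => simp at hs
          | cons a s => simpa using hs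
        · show act (exJoin m i u v) (exJoin m i u v k x) w = _
          rw [hj]
          exact h9

theorem exJoin_girth {m : Fin 3 → U → U} (hinv : ∀ i x, m i (m i x) = x) {i : Fin 3} {u v : U}
    {g : ℕ} (hg : Girth m Set.univ g)
    (hno : ∀ w : List (Fin 3), w.length < g → act m u w ≠ v) :
    Girth (exJoin m i u v) Set.univ g := by
  have hno' : ∀ w : List (Fin 3), w.length < g → act m v w ≠ u := by
    intro w hw h
    apply hno w.reverse (by simpa using hw)
    rw [← h]
    exact ex_act_reverse hinv v w
  have key : ∀ p p' : U, (p = u ∨ p = v) → (p' = u ∨ p' = v) → p ≠ p' →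
      ∀ w : List (Fin 3), w.length < g → act m p w ≠ p' := by
    rintro p p' (rfl | rfl) (rfl | rfl) hne w hw
    · exact absurd rfl hne
    · exact hno w hw
    · exact hno' w hw
    · exact absurd rfl hne
  have A2 : ∀ (p : U) (r : List (Fin 3)), (p = u ∨ p = v) → r.length < g →
      Good (exJoin m i u v) p r → r.head? ≠ some i →
      Good m p r ∧ act m p r = act (exJoin m i u v) p r := by
    intro p r hp hr hgood hhead
    rcases ex_first_cross m i u v r p hgood with h | ⟨s, r', h4, h5, h6, h7, h8, h9⟩
    · exact h
    · exfalso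
      by_cases hpp : act m p s = p
      · by_cases hs : s = []
        · subst hs
          apply hhead
          rw [h4]
          rfl
        · refine hg p (Set.mem_univ _) s hs ?_ h5 hpp
          have : s.length ≤ r.length := by rw [h4]; simp
          omega
      · refine key p (act m p s) hp h6 (fun h => hpp h.symm) s ?_ rfl
        have : s.length ≤ r.length := by rw [h4]; simp
        omega
  intro x _ w hw hl hgood hclosed
  rcases ex_first_cross m i u v w x hgood with ⟨h4, h5⟩ | ⟨s, r, h4, h5, h6, h7, h8, h9⟩
  · exact hg x (Set.mem_univ _) w hw hl h4 (h5.trans hclosed)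
  · by_cases huv : u = v
    · subst huv
      refine hno [] ?_ rfl
      have : 0 < w.length := List.length_pos_iff.2 hw
      show 0 < g
      omega
    have hq : exJoin m i u v i (act m x s) = u ∨ exJoin m i u v i (act m x s) = v := by
      rcases h6 with h | h
      · right; rw [h, exJoin_left]
      · left; rw [h, exJoin_right]
    have hlen : w.length = s.length + (r.length + 1) := by rw [h4]; simp
    have h10 := A2 _ r hq (by omega) h7 h8
    have hne : exJoin m i u v i (act m x s) ≠ act m x s := by
      rcases h6 with h | h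
      · rw [h, exJoin_left]; exact fun h => huv h.symm
      · rw [h, exJoin_right]; exact huv
    refine key _ _ hq h6 hne (r ++ s) (by simp; omega) ?_
    rw [ex_act_append, h10.2, ← h9, hclosed]

theorem ex_card_image_words (m : Fin 3 → U → U) (u : U) (S : Finset U) (g : ℕ)
    (hS : ∀ v ∈ S, ∃ w : List (Fin 3), w.length < g + 1 ∧ act m u w = v) :
    S.card ≤ 3 ^ (g + 1) := by
  classical
  have h1 : S ⊆ (Finset.range (g + 1)).biUnion (fun l =>
      (Finset.univ : Finset (Fin l → Fin 3)).image (fun f => act m u (List.ofFn f))) := by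
    intro v hv
    obtain ⟨w, hw, rfl⟩ := hS v hv
    rw [Finset.mem_biUnion]
    refine ⟨w.length, Finset.mem_range.2 hw, ?_⟩
    rw [Finset.mem_image]
    exact ⟨w.get, Finset.mem_univ _, by rw [List.ofFn_get]⟩
  refine (Finset.card_le_card h1).trans (Finset.card_biUnion_le.trans ?_)
  have h2 : ∀ l ∈ Finset.range (g + 1), ((Finset.univ : Finset (Fin l → Fin 3)).image
      (fun f => act m u (List.ofFn f))).card ≤ 3 ^ l := by
    intro l _
    refine Finset.card_image_le.trans ?_
    simp
  refine (Finset.sum_le_sum h2).trans ?_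
  have : ∀ k : ℕ, ∑ l ∈ Finset.range k, 3 ^ l ≤ 3 ^ k := by
    intro k
    induction k with
    | zero => simp
    | succ k ih => rw [Finset.sum_range_succ, pow_succ]; omega
  exact this (g + 1)

end aux

/-- (2a) Three involutions on `Fin n` with large girth and few fixed points.
Proof: among all triples of involutions on `Fin n` without non-empty `Good` closed words of length
`≤ g` (the identity triple is one) take one with the least number of pairs `(i,x)`, `m i x = x`.
Two fixed points `u ≠ v` of the same letter `i` are joined by a word of length `< g` (otherwise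
put `m i u = v`, `m i v = u`: a `Good` closed word of length `≤ g` of the new system crosses the
new edge at most once (between two consecutive crossings there would be a short word from `u` to
`v` or a non-empty closed `Good` word of the old system), and exactly one crossing gives a word of
length `< g` from `v` to `u` in the old system).  Hence each letter has at most `3 ^ (g+1)` fixed
points. -/
theorem exists_involutions (g n : ℕ) :
    ∃ m : Fin 3 → Fin n → Fin n, (∀ i x, m i (m i x) = x) ∧ Girth m Set.univ g ∧
      ∑ x, defi m x ≤ 3 * 3 ^ (g + 2) := by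
  classical
  let P : Finset (Fin 3 → Fin n → Fin n) :=
    Finset.univ.filter (fun m => (∀ i x, m i (m i x) = x) ∧ Girth m Set.univ g)
  let N : (Fin 3 → Fin n → Fin n) → ℕ := fun m =>
    ∑ i : Fin 3, (Finset.univ.filter (fun x => m i x = x)).card
  have hP : P.Nonempty := by
    refine ⟨fun _ x => x, ?_⟩
    simp only [P, Finset.mem_filter, Finset.mem_univ, true_and]
    refine ⟨by simp, ?_⟩
    intro x _ w hw _ hgood
    cases w with
    | nil => exact absurd rfl hw
    | cons i w => exact absurd rfl hgood.1
  obtain ⟨m, hm, hmin⟩ := Finset.exists_min_image P N hP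
  simp only [P, Finset.mem_filter, Finset.mem_univ, true_and] at hm hmin
  obtain ⟨hinv, hg⟩ := hm
  refine ⟨m, hinv, hg, ?_⟩
  have hF : ∀ i : Fin 3, (Finset.univ.filter (fun x => m i x = x)).card ≤ 3 ^ (g + 1) := by
    intro i
    rcases (Finset.univ.filter (fun x => m i x = x)).eq_empty_or_nonempty with h | ⟨u, hu⟩
    · rw [h]; simp
    · apply ex_card_image_words m u _ g
      intro v hv
      simp only [Finset.mem_filter, Finset.mem_univ, true_and] at hu hv
      by_contra hcon
      push Not at hcon
      have huv : u ≠ v := by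
        intro h
        exact hcon [] (by simp) h
      have hG := exJoin_girth (v := v) (i := i) hinv hg
        (fun w hw => hcon w (by omega))
      have hI := exJoin_inv hinv hu hv
      have hle := hmin (exJoin m i u v) ⟨hI, hG⟩
      have hlt : N (exJoin m i u v) < N m := by
        apply Finset.sum_lt_sum
        · intro k _
          apply Finset.card_le_card
          intro x hx
          simp only [Finset.mem_filter, Finset.mem_univ, true_and] at hx ⊢
          by_cases hc : k = i ∧ (x = u ∨ x = v)
          · obtain ⟨rfl, hc | hc⟩ := hc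
            · rw [hc]; exact hu
            · rw [hc]; exact hv
          · rw [exJoin_other] at hx
            · exact hx
            · by_cases hk : k = i
              · right
                exact ⟨fun h => hc ⟨hk, Or.inl h⟩, fun h => hc ⟨hk, Or.inr h⟩⟩
              · exact Or.inl hk
        · refine ⟨i, Finset.mem_univ _, ?_⟩
          apply Finset.card_lt_card
          rw [Finset.ssubset_iff_of_subset]
          · refine ⟨u, ?_, ?_⟩
            · simp [hu]
            · simp only [Finset.mem_filter, Finset.mem_univ, true_and]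
              rw [exJoin_left]
              exact fun h => huv h.symm
          · intro x hx
            simp only [Finset.mem_filter, Finset.mem_univ, true_and] at hx ⊢
            by_cases hc : x = u ∨ x = v
            · rcases hc with hc | hc
              · rw [hc]; exact hu
              · rw [hc]; exact hv
            · rw [exJoin_other] at hx
              · exact hx
              · right
                exact ⟨fun h => hc (Or.inl h), fun h => hc (Or.inr h)⟩
      omega
  have hsum : ∑ x, defi m x = ∑ i : Fin 3, ((Finset.univ.filter (fun x => m i x = x)).card : ℝ) := by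
    unfold defi
    rw [Finset.sum_comm]
    apply Finset.sum_congr rfl
    intro i _
    rw [Finset.card_filter]
    push_cast
    apply Finset.sum_congr rfl
    intro x _
    split_ifs <;> rfl
  rw [hsum]
  calc ∑ i : Fin 3, ((Finset.univ.filter (fun x => m i x = x)).card : ℝ)
      ≤ ∑ i : Fin 3, (3 : ℝ) ^ (g + 1) := by
        apply Finset.sum_le_sum
        intro i _
        exact_mod_cast hF i
    _ = 3 * 3 ^ (g + 1) := by simp
    _ ≤ 3 * 3 ^ (g + 2) := by
        have : (3 : ℝ) ^ (g + 1) ≤ 3 ^ (g + 2) := pow_le_pow_right₀ (by norm_num) (by omega)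
        linarith

/-- greedy colouring of a symmetric relation of bounded degree -/
theorem ex_greedy {n B : ℕ} (r : Fin n → Fin n → Prop) (hsymm : ∀ x y, r x y → r y x)
    (nb : Fin n → Finset (Fin n)) (hnb : ∀ x y, r x y → y ∈ nb x) (hB : ∀ x, (nb x).card ≤ B) :
    ∃ c : Fin n → Fin (B + 1), ∀ x y, r x y → x ≠ y → c x ≠ c y := by
  classical
  have key : ∀ S : Finset (Fin n), ∃ c : Fin n → Fin (B + 1),
      ∀ x ∈ S, ∀ y ∈ S, r x y → x ≠ y → c x ≠ c y := by
    intro S
    induction S using Finset.induction with
    | empty => exact ⟨fun _ => 0, by simp⟩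
    | insert a S ha ih =>
      obtain ⟨c, hc⟩ := ih
      have h1 : ((nb a).image c).card < (Finset.univ : Finset (Fin (B + 1))).card := by
        rw [Finset.card_univ, Fintype.card_fin]
        exact Nat.lt_succ_of_le (Finset.card_image_le.trans (hB a))
      obtain ⟨k, -, hk⟩ := Finset.exists_mem_notMem_of_card_lt_card h1
      refine ⟨Function.update c a k, ?_⟩
      intro x hx y hy hxy hne
      rw [Finset.mem_insert] at hx hy
      by_cases hxa : x = a
      · subst hxa
        have hya : y ≠ x := fun h => hne h.symm
        rw [Function.update_self, Function.update_of_ne hya]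
        intro h
        apply hk
        rw [h]
        exact Finset.mem_image_of_mem _ (hnb _ _ hxy)
      · by_cases hya : y = a
        · subst hya
          rw [Function.update_self, Function.update_of_ne hxa]
          intro h
          apply hk
          rw [← h]
          exact Finset.mem_image_of_mem _ (hnb _ _ (hsymm _ _ hxy))
        · rw [Function.update_of_ne hxa, Function.update_of_ne hya]
          exact hc x (hx.resolve_left hxa) y (hy.resolve_left hya) hxy hne
  obtain ⟨c, hc⟩ := key Finset.univ
  exact ⟨c, fun x y => hc x (Finset.mem_univ _) y (Finset.mem_univ _)⟩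

/-- (2b) greedy colouring: vertices at word distance `≤ R` get different colours. -/
theorem exists_coloring (R : ℕ) : ∃ K : ℕ, ∀ (n : ℕ) (m : Fin 3 → Fin n → Fin n),
    (∀ i x, m i (m i x) = x) → ∃ c : Fin n → Fin K,
      ∀ (x : Fin n) (w : List (Fin 3)), w.length ≤ R → c (act m x w) = c x → act m x w = x := by
  classical
  refine ⟨(∑ l ∈ Finset.range (R + 1), 3 ^ l) + 1, ?_⟩
  intro n m hinv
  let nb : Fin n → Finset (Fin n) := fun x => (Finset.range (R + 1)).biUnion (fun l =>
      (Finset.univ : Finset (Fin l → Fin 3)).image (fun f => act m x (List.ofFn f)))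
  have h1 : ∀ x y : Fin n, (∃ w : List (Fin 3), w.length ≤ R ∧ act m x w = y) →
      (∃ w : List (Fin 3), w.length ≤ R ∧ act m y w = x) := by
    rintro x y ⟨w, hw, rfl⟩
    exact ⟨w.reverse, by simpa using hw, ex_act_reverse hinv x w⟩
  have h2 : ∀ x y : Fin n, (∃ w : List (Fin 3), w.length ≤ R ∧ act m x w = y) → y ∈ nb x := by
    rintro x y ⟨w, hw, rfl⟩
    simp only [nb]
    rw [Finset.mem_biUnion]
    refine ⟨w.length, Finset.mem_range.2 (by omega), ?_⟩
    rw [Finset.mem_image]
    exact ⟨w.get, Finset.mem_univ _, by rw [List.ofFn_get]⟩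
  have h3 : ∀ x, (nb x).card ≤ ∑ l ∈ Finset.range (R + 1), 3 ^ l := by
    intro x
    refine Finset.card_biUnion_le.trans (Finset.sum_le_sum ?_)
    intro l _
    refine Finset.card_image_le.trans ?_
    simp
  obtain ⟨c, hc⟩ := ex_greedy _ h1 nb h2 h3
  refine ⟨c, ?_⟩
  intro x w hw h
  by_contra hne
  exact hc x (act m x w) ⟨w, hw, rfl⟩ (fun h => hne h.symm) h.symm

/-- a `Good` word visits distinct points (below the girth). -/
theorem ex_good_take_inj {n g : ℕ} {m : Fin 3 → Fin n → Fin n} (hg : Girth m Set.univ g)
    {x : Fin n} {w : List (Fin 3)} (hw : Good m x w) (hl : w.length ≤ g) {a b : ℕ}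
    (hab : a < b) (hb : b ≤ w.length) : act m x (w.take a) ≠ act m x (w.take b) := by
  have hdrop : ∀ (k : ℕ) (x : Fin n) (w : List (Fin 3)), Good m x w →
      Good m (act m x (w.take k)) (w.drop k) := by
    intro k
    induction k with
    | zero => intro x w h; simpa [act] using h
    | succ k ih =>
      intro x w h
      cases w with
      | nil => simpa [act] using h
      | cons i w =>
        simp only [List.take_succ_cons, List.drop_succ_cons]
        exact ih _ _ h.2.2
  have htake : ∀ (k : ℕ) (x : Fin n) (w : List (Fin 3)), Good m x w → Good m x (w.take k) := by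
    intro k
    induction k with
    | zero => intro x w h; simp [Good]
    | succ k ih =>
      intro x w h
      cases w with
      | nil => simp [Good]
      | cons i w =>
        rw [List.take_succ_cons]
        refine ⟨h.1, ?_, ih _ _ h.2.2⟩
        intro h'
        apply h.2.1
        cases w with
        | nil => simp at h'
        | cons j w =>
          cases k with
          | zero => simp at h'
          | succ k => simpa using h'
  intro heq
  have h1 := htake (b - a) _ _ (hdrop a x w hw)
  have h2 : w.take b = w.take a ++ (w.drop a).take (b - a) := by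
    conv_lhs => rw [show b = a + (b - a) by omega]
    rw [List.take_add]
  rw [h2, ex_act_append] at heq
  refine hg _ (Set.mem_univ _) ((w.drop a).take (b - a)) ?_ ?_ h1 heq.symm
  · intro h
    have := congrArg List.length h
    simp at this
    omega
  · simp
    omega

/-- (2c) counting: a colouring with 81 colours avoiding the colour patterns of a finite list. -/
theorem exists_avoiding (g t n N : ℕ) (m : Fin 3 → Fin n → Fin n) (hinv : ∀ i x, m i (m i x) = x)
    (hg : Girth m Set.univ g) (ht : 2 * t ≤ g) (pat : Fin N → List (Fin 3) → Fin 81)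
    (hN : n * 3 ^ t * N < 81 ^ (t + 1)) :
    ∃ c : Fin n → Fin 81, ∀ (x : Fin n) (a : Fin N) (w : List (Fin 3)), Good m x w →
      w.length = t → ∃ u, u <+: w ∧ c (act m x u) ≠ pat a u := by
  classical
  -- the bad set of an index
  let bad : (Fin n × (Fin t → Fin 3)) × Fin N → Finset (Fin n → Fin 81) := fun p =>
    Finset.univ.filter (fun c => Good m p.1.1 (List.ofFn p.1.2) ∧
      ∀ u, u <+: List.ofFn p.1.2 → c (act m p.1.1 u) = pat p.2 u)
  have hbad : ∀ p, (bad p).card * 81 ^ (t + 1) ≤ 81 ^ n := by
    rintro ⟨⟨x, f⟩, a⟩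
    by_cases hgood : Good m x (List.ofFn f)
    · let v : Fin (t + 1) → Fin n := fun k => act m x ((List.ofFn f).take k)
      have hv : Function.Injective v := by
        intro k l hkl
        by_contra hne
        have hlen : (List.ofFn f).length = t := by simp
        rcases lt_or_gt_of_ne (fun h => hne (Fin.ext h) : (k : ℕ) ≠ l) with h | h
        · exact ex_good_take_inj hg hgood (by rw [hlen]; omega) h (by rw [hlen]; omega) hkl
        · exact ex_good_take_inj hg hgood (by rw [hlen]; omega) h (by rw [hlen]; omega) hkl.symm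
      let D : Finset (Fin n) := Finset.univ.image v
      have hD : D.card = t + 1 := by
        rw [Finset.card_image_of_injective _ hv]
        simp
      let col : Fin n → Fin 81 := fun y =>
        if h : ∃ k, v k = y then pat a ((List.ofFn f).take h.choose) else 0
      let T : Fin n → Finset (Fin 81) := fun y => if y ∈ D then {col y} else Finset.univ
      have hsub : bad ((x, f), a) ⊆ Fintype.piFinset T := by
        intro c hc
        simp only [bad, Finset.mem_filter, Finset.mem_univ, true_and] at hc
        rw [Fintype.mem_piFinset]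
        intro y
        simp only [T]
        split_ifs with hy
        · rw [Finset.mem_singleton]
          have hy' : ∃ k, v k = y := by
            simpa [D] using hy
          simp only [col, dif_pos hy']
          rw [← hc.2 _ (List.take_prefix _ _)]
          congr 1
          exact hy'.choose_spec.symm
        · exact Finset.mem_univ _
      have hcard : (Fintype.piFinset T).card * 81 ^ (t + 1) = 81 ^ n := by
        rw [Fintype.card_piFinset]
        have h1 : ∀ y, (T y).card = if y ∈ D then 1 else 81 := by
          intro y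
          simp only [T]
          split_ifs <;> simp
        rw [Finset.prod_congr rfl (fun y _ => h1 y), Finset.prod_ite]
        simp only [Finset.prod_const_one, one_mul, Finset.prod_const]
        rw [← hD, ← pow_add]
        congr 1
        have : (Finset.univ.filter (fun y => y ∉ D)) = Dᶜ := by ext y; simp
        rw [this, Finset.card_compl, Fintype.card_fin]
        have : D.card ≤ n := by simpa using Finset.card_le_univ D
        omega
      calc (bad ((x, f), a)).card * 81 ^ (t + 1) ≤ (Fintype.piFinset T).card * 81 ^ (t + 1) :=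
            Nat.mul_le_mul_right _ (Finset.card_le_card hsub)
        _ = 81 ^ n := hcard
    · have : bad ((x, f), a) = ∅ := by
        simp only [bad]
        apply Finset.filter_eq_empty_iff.2
        intro c _ h
        exact hgood h.1
      rw [this]
      simp
  have hunion : (Finset.univ.biUnion bad).card < (Finset.univ : Finset (Fin n → Fin 81)).card := by
    have h1 : (Finset.univ.biUnion bad).card * 81 ^ (t + 1) ≤ (n * 3 ^ t * N) * 81 ^ n := by
      calc (Finset.univ.biUnion bad).card * 81 ^ (t + 1)
          ≤ (∑ p, (bad p).card) * 81 ^ (t + 1) := Nat.mul_le_mul_right _ Finset.card_biUnion_le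
        _ = ∑ p, (bad p).card * 81 ^ (t + 1) := Finset.sum_mul _ _ _
        _ ≤ ∑ _p : (Fin n × (Fin t → Fin 3)) × Fin N, 81 ^ n :=
            Finset.sum_le_sum (fun p _ => hbad p)
        _ = (n * 3 ^ t * N) * 81 ^ n := by simp
    have h2 : (n * 3 ^ t * N) * 81 ^ n < 81 ^ (t + 1) * 81 ^ n :=
      Nat.mul_lt_mul_of_pos_right hN (by positivity)
    have h3 : (Finset.univ : Finset (Fin n → Fin 81)).card = 81 ^ n := by simp
    rw [h3]
    have h4 : (Finset.univ.biUnion bad).card * 81 ^ (t + 1) < 81 ^ n * 81 ^ (t + 1) := by
      rw [mul_comm (81 ^ n)]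
      exact lt_of_le_of_lt h1 h2
    exact lt_of_mul_lt_mul_right h4 (Nat.zero_le _)
  obtain ⟨c, -, hc⟩ := Finset.exists_mem_notMem_of_card_lt_card hunion
  refine ⟨c, ?_⟩
  intro x a w hw hlen
  by_contra hcon
  push Not at hcon
  apply hc
  rw [Finset.mem_biUnion]
  subst hlen
  refine ⟨((x, w.get), a), Finset.mem_univ _, ?_⟩
  simp only [bad, Finset.mem_filter, Finset.mem_univ, true_and, List.ofFn_get]
  exact ⟨hw, hcon⟩

/-- One level of the system. -/
structure ExLv (R K : ℕ) (η : ℝ) where
  n : ℕ
  npos : 0 < n
  t : ℕ
  m : Fin 3 → Fin n → Fin n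
  c1 : Fin n → Fin K
  c2 : Fin n → Fin 81
  inv : ∀ i x, m i (m i x) = x
  P1 : ∀ (x : Fin n) (w : List (Fin 3)), w.length ≤ R → c1 (act m x w) = c1 x → act m x w = x
  P2 : Girth m Set.univ (2 * t + R)
  P3 : ∑ x, defi m x ≤ η * n

/-- condition between two levels: words of length `t` of the second against the first. -/
def ExLvRel {R K : ℕ} {η : ℝ} (A B : ExLv R K η) : Prop :=
  ∀ (x : Fin B.n) (y : Fin A.n) (w : List (Fin 3)), Good B.m x w → w.length = B.t →
    ∃ u, u <+: w ∧ B.c2 (act B.m x u) ≠ A.c2 (act A.m y u)

theorem ex_lv_step {R K : ℕ} {η : ℝ} (hη : 0 < η)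
    (hK : ∀ (n : ℕ) (m : Fin 3 → Fin n → Fin n),
      (∀ i x, m i (m i x) = x) → ∃ c : Fin n → Fin K,
      ∀ (x : Fin n) (w : List (Fin 3)), w.length ≤ R → c (act m x w) = c x → act m x w = x)
    (s : Finset (ExLv R K η)) : ∃ B : ExLv R K η, ∀ A ∈ s, ExLvRel A B := by
  classical
  -- all patterns
  let Idx : Type := Σ A : {A // A ∈ s}, Fin A.1.n
  let N : ℕ := Fintype.card Idx
  let e : Idx ≃ Fin N := Fintype.equivFin Idx
  let pat : Fin N → List (Fin 3) → Fin 81 := fun a u =>
    (e.symm a).1.1.c2 (act (e.symm a).1.1.m (e.symm a).2 u)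
  -- choose t
  obtain ⟨t, ht⟩ : ∃ t : ℕ, (3 ^ (R + 3) / η + 2) * N < (3 : ℝ) ^ t :=
    pow_unbounded_of_one_lt _ (by norm_num)
  let n : ℕ := ⌈(3 * 3 ^ (2 * t + R + 2) : ℝ) / η⌉₊ + 1
  obtain ⟨m, hinv, hg, hdefi⟩ := exists_involutions (2 * t + R) n
  obtain ⟨c1, hc1⟩ := hK n m hinv
  have hnle : (n : ℝ) ≤ (3 ^ (R + 3) / η + 2) * 9 ^ t := by
    have h1 : (n : ℝ) < (3 * 3 ^ (2 * t + R + 2) : ℝ) / η + 1 + 1 := by
      have := Nat.ceil_lt_add_one (show (0 : ℝ) ≤ (3 * 3 ^ (2 * t + R + 2) : ℝ) / η by positivity)
      simp only [n]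
      push_cast
      linarith
    have h2 : (3 * 3 ^ (2 * t + R + 2) : ℝ) / η = 3 ^ (R + 3) / η * 9 ^ t := by
      have : (9 : ℝ) ^ t = 3 ^ (2 * t) := by rw [pow_mul]; norm_num
      rw [this]
      rw [show 2 * t + R + 2 = 2 * t + (R + 2) by ring, pow_add, pow_succ 3 (R + 2)]
      ring
    have h3 : (1 : ℝ) ≤ 9 ^ t := one_le_pow₀ (by norm_num)
    rw [h2] at h1
    nlinarith
  have hN : n * 3 ^ t * N < 81 ^ (t + 1) := by
    have h1 : ((n * 3 ^ t * N : ℕ) : ℝ) < ((81 ^ (t + 1) : ℕ) : ℝ) := by
      push_cast
      have h2 : (n : ℝ) * 3 ^ t * N ≤ ((3 ^ (R + 3) / η + 2) * N) * 27 ^ t := by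
        have h3 : (27 : ℝ) ^ t = 9 ^ t * 3 ^ t := by rw [← mul_pow]; norm_num
        calc (n : ℝ) * 3 ^ t * N ≤ ((3 ^ (R + 3) / η + 2) * 9 ^ t) * 3 ^ t * N := by gcongr
          _ = ((3 ^ (R + 3) / η + 2) * N) * 27 ^ t := by rw [h3]; ring
      have h4 : ((3 ^ (R + 3) / η + 2) * N) * (27 : ℝ) ^ t < 3 ^ t * 27 ^ t :=
        mul_lt_mul_of_pos_right ht (by positivity)
      have h5 : (3 : ℝ) ^ t * 27 ^ t = 81 ^ t := by rw [← mul_pow]; norm_num
      have h6 : (81 : ℝ) ^ t ≤ 81 ^ (t + 1) := pow_le_pow_right₀ (by norm_num) (by omega)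
      linarith
    exact_mod_cast h1
  obtain ⟨c2, hc2⟩ := exists_avoiding (2 * t + R) t n N m hinv hg (by omega) pat hN
  refine ⟨⟨n, by simp [n], t, m, c1, c2, hinv, hc1, hg, ?_⟩, ?_⟩
  · have h1 : (3 * 3 ^ (2 * t + R + 2) : ℝ) / η ≤ n := by
      have := Nat.le_ceil ((3 * 3 ^ (2 * t + R + 2) : ℝ) / η)
      simp only [n]
      push_cast
      linarith
    rw [div_le_iff₀ hη] at h1
    linarith
  · intro A hA x y w hw hlen
    obtain ⟨u, hu1, hu2⟩ := hc2 x (e ⟨⟨A, hA⟩, y⟩) w hw hlen
    refine ⟨u, hu1, ?_⟩
    have hp : pat (e ⟨⟨A, hA⟩, y⟩) u = A.c2 (act A.m y u) := by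
      simp only [pat]
      rw [Equiv.symm_apply_apply]
    rw [hp] at hu2
    exact hu2

/-- (2d) the infinite system.  `t j`, `g j = 2 * t j + R`, level `j` is `Fin (n j)` with `n j` about
`3 ^ (g j + 4) / η`; the colour set is `Fin K × Fin 81`; the patterns to be avoided at level `j`
are `u ↦ c₂ (act m y u)` for `y` in the lower levels.  (Recursion over finite systems.) -/
theorem exists_sys (R : ℕ) (η : ℝ) (hη : 0 < η) : Nonempty (Sys R η) := by
  classical
  obtain ⟨K, hK⟩ := exists_coloring R
  obtain ⟨f, -, hf⟩ := exists_seq_of_forall_finset_exists (fun _ : ExLv R K η => True) ExLvRel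
    (fun s _ => by
      obtain ⟨B, hB⟩ := ex_lv_step hη hK s
      exact ⟨B, trivial, hB⟩)
  let U : Type := Σ j : ℕ, Fin (f j).n
  let m : Fin 3 → U → U := fun i x => ⟨x.1, (f x.1).m i x.2⟩
  have hact : ∀ (w : List (Fin 3)) (j : ℕ) (x : Fin (f j).n),
      act m (⟨j, x⟩ : U) w = ⟨j, act (f j).m x w⟩ := by
    intro w
    induction w with
    | nil => intro j x; rfl
    | cons i w ih => intro j x; exact ih j _
  have hgood : ∀ (w : List (Fin 3)) (j : ℕ) (x : Fin (f j).n),
      Good m (⟨j, x⟩ : U) w → Good (f j).m x w := by
    intro w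
    induction w with
    | nil => intro j x h; trivial
    | cons i w ih =>
      intro j x h
      refine ⟨?_, h.2.1, ih j _ h.2.2⟩
      intro h'
      apply h.1
      show (⟨j, (f j).m i x⟩ : U) = ⟨j, x⟩
      rw [h']
  have hinj : ∀ (j : ℕ) (x y : Fin (f j).n), (⟨j, x⟩ : U) = ⟨j, y⟩ → x = y := by
    intro j x y h
    simpa using h
  let emb : ∀ j, Fin (f j).n ↪ U := fun j => ⟨fun x => ⟨j, x⟩, fun x y h => hinj j x y h⟩
  have hemb : ∀ j x, emb j x = ⟨j, x⟩ := fun _ _ => rfl
  refine ⟨{
    C := Fin K × Fin 81
    finC := inferInstance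
    U := U
    cntU := inferInstance
    lev := fun x => x.1
    X := fun j => (Finset.univ : Finset (Fin (f j).n)).map (emb j)
    m := m
    c := fun x => ((f x.1).c1 x.2, (f x.1).c2 x.2)
    t := fun j => (f j).t
    g := fun j => 2 * (f j).t + R
    memX := ?_
    neX := ?_
    inv := ?_
    levm := ?_
    P1 := ?_
    tg := fun j => le_refl _
    P2 := ?_
    P3 := ?_
    P4 := ?_ }⟩
  · rintro j ⟨k, x⟩
    simp only [Finset.mem_map, Finset.mem_univ, true_and]
    constructor
    · rintro ⟨y, hy⟩
      exact (congrArg Sigma.fst hy).symm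
    · intro h
      subst h
      exact ⟨x, rfl⟩
  · intro j
    rw [Finset.map_nonempty]
    exact ⟨⟨0, (f j).npos⟩, Finset.mem_univ _⟩
  · rintro i ⟨j, x⟩
    show (⟨j, (f j).m i ((f j).m i x)⟩ : U) = ⟨j, x⟩
    rw [(f j).inv]
  · rintro i ⟨j, x⟩
    rfl
  · rintro ⟨j, x⟩ w hw h
    rw [hact] at h ⊢
    have h1 : (f j).c1 (act (f j).m x w) = (f j).c1 x := (Prod.mk.inj h).1
    rw [(f j).P1 x w hw h1]
  · rintro j ⟨k, x⟩ hx w hw hl hgd hcl
    rw [hact] at hcl
    have hk : k = j := by
      simp only [Finset.coe_map, Set.mem_image, Finset.mem_coe, Finset.mem_univ, true_and] at hx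
      obtain ⟨y, hy⟩ := hx
      exact (congrArg Sigma.fst hy).symm
    subst hk
    exact (f k).P2 x (Set.mem_univ _) w hw hl (hgood w k x hgd) (hinj k _ _ hcl)
  · intro j
    rw [Finset.sum_map, Finset.card_map, Finset.card_univ, Fintype.card_fin]
    refine le_trans (le_of_eq ?_) (f j).P3
    apply Finset.sum_congr rfl
    intro x _
    unfold defi
    apply Finset.sum_congr rfl
    intro i _
    have : (m i (⟨j, x⟩ : U) = ⟨j, x⟩) ↔ (f j).m i x = x := by
      constructor
      · intro h; exact hinj j _ _ h
      · intro h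
        show (⟨j, (f j).m i x⟩ : U) = ⟨j, x⟩
        rw [h]
    rw [hemb]
    simp only [this]
    split_ifs <;> rfl
  · rintro ⟨j, x⟩ ⟨k, y⟩ w hlt hgd hlen
    obtain ⟨u, hu1, hu2⟩ := hf k j hlt x y w (hgood w j x hgd) hlen
    refine ⟨u, hu1, ?_⟩
    rw [hact, hact]
    intro h
    exact hu2 (Prod.mk.inj h).2

end P090
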