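import Vale.Agent.P090.Space

/-!
# P090, part 3b: kernels on a combinatorial system
-/

namespace P090

theorem abs_sum_le_single {ι : Type*} (s : Finset ι) (f : ι → ℝ) {B : ℝ} (hB : 0 ≤ B)
    (h1 : ∀ z ∈ s, |f z| ≤ B) (h2 : ∀ z ∈ s, ∀ z' ∈ s, f z ≠ 0 → f z' ≠ 0 → z = z') :
    |∑ z ∈ s, f z| ≤ B := by
  by_cases h : ∃ z ∈ s, f z ≠ 0
  · obtain ⟨z, hz, hfz⟩ := h
    rw [Finset.sum_eq_single_of_mem z hz]
    · exact h1 z hz
    · intro z' hz' hne
      by_contra h3
      exact hne (h2 z' hz' z hz h3 hfz)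
  · push Not at h
    rw [Finset.sum_eq_zero h]
    simpa using hB

section

variable {U : Type*} {m : Fin 3 → U → U} {T : ℕ}

theorem dN_step_left (hinv : ∀ i x, m i (m i x) = x) (i : Fin 3) (x z : U) :
    |(dN m T x z : ℝ) - dN m T (m i x) z| ≤ 1 := by
  have h1 : dN m T x z ≤ 1 + dN m T (m i x) z :=
    (dN_triangle m T x (m i x) z).trans (Nat.add_le_add_right (dN_step_le m T i x) _)
  have h2 : dN m T (m i x) z ≤ 1 + dN m T x z := by
    refine (dN_triangle m T (m i x) x z).trans (Nat.add_le_add_right ?_ _)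
    have := dN_step_le m T i (m i x)
    rwa [hinv] at this
  have h1' : (dN m T x z : ℝ) ≤ 1 + dN m T (m i x) z := by exact_mod_cast h1
  have h2' : (dN m T (m i x) z : ℝ) ≤ 1 + dN m T x z := by exact_mod_cast h2
  rw [abs_le]
  constructor <;> linarith

theorem dN_step_right (hinv : ∀ i x, m i (m i x) = x) (i : Fin 3) (x z : U) :
    |(dN m T x z : ℝ) - dN m T x (m i z)| ≤ 1 := by
  rw [dN_comm hinv T x z, dN_comm hinv T x (m i z)]
  exact dN_step_left hinv i z x

end

variable {R : ℕ} {η : ℝ} (S : Sys R η) (T : ℕ)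

/-- patterns of colours along words of length `≤ T` -/
def Sys.A : Type := {w : List (Fin 3) // w.length ≤ T} → S.C

instance : Finite (S.A T) := by
  have := S.finC
  have : Finite {w : List (Fin 3) // w.length ≤ T} := (List.finite_length_le (Fin 3) T).to_subtype
  unfold Sys.A
  infer_instance

/-- the points of the metric space -/
abbrev Sys.MM : Type := S.A T ⊕ S.U

/-- the three involutions, extended by the identity on patterns -/
def Sys.mm (i : Fin 3) : S.MM T → S.MM T
  | .inl a => .inl a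
  | .inr y => .inr (S.m i y)

/-- the pattern of a point -/
def Sys.pat (y : S.U) : S.A T := fun w => S.c (act S.m y w.1)

def Sys.pt : S.MM T → S.A T
  | .inl a => a
  | .inr y => S.pat T y

def Sys.Agr (q : ℕ) (z : S.U) (a : S.A T) : Prop :=
  ∀ w : {w : List (Fin 3) // w.length ≤ T}, w.1.length ≤ q → S.c (act S.m z w.1) = a w

open Classical in
noncomputable def Sys.cnt (z : S.U) (a : S.A T) : ℕ :=
  ((Finset.Icc 1 T).filter (fun q => S.Agr T q z a)).card

noncomputable def Sys.zeta (z : S.U) (a : S.A T) : ℝ := S.cnt T z a / T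

noncomputable def Sys.e (x z : S.U) : ℝ := 1 - dN S.m T x z / T

noncomputable def Sys.Fn (W : S.U → S.MM T → ℝ) (x : S.U) (p : S.MM T) : ℝ :=
  ∑ z ∈ S.X (S.lev x), S.e T x z * (W z p * S.zeta T z (S.pt T p))

variable {S T}

/-! #### facts on `e` -/

section facts

variable (hT : 0 < T)

include hT

theorem e_nonneg (x z : S.U) : 0 ≤ S.e T x z := by
  have h : (dN S.m T x z : ℝ) ≤ T := by exact_mod_cast dN_le_cap S.m T x z
  have hT' : (0 : ℝ) < T := by exact_mod_cast hT
  have : (dN S.m T x z : ℝ) / T ≤ 1 := by rw [div_le_one hT']; exact h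
  unfold Sys.e
  linarith

omit hT in
theorem e_le_one (x z : S.U) : S.e T x z ≤ 1 := by
  have : 0 ≤ (dN S.m T x z : ℝ) / T := by positivity
  unfold Sys.e
  linarith

omit hT in
theorem e_self (x : S.U) : S.e T x x = 1 := by
  simp [Sys.e, dN_self]

theorem e_step_left (i : Fin 3) (x z : S.U) : |S.e T x z - S.e T (S.m i x) z| ≤ 1 / T := by
  have hT' : (0 : ℝ) < T := by exact_mod_cast hT
  have h := dN_step_left (T := T) S.inv i x z
  have : S.e T x z - S.e T (S.m i x) z = -((dN S.m T x z : ℝ) - dN S.m T (S.m i x) z) / T := by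
    unfold Sys.e; ring
  rw [this, abs_div, abs_neg, abs_of_pos hT']
  gcongr

theorem e_step_right (i : Fin 3) (x z : S.U) : |S.e T x z - S.e T x (S.m i z)| ≤ 1 / T := by
  have hT' : (0 : ℝ) < T := by exact_mod_cast hT
  have h := dN_step_right (T := T) S.inv i x z
  have : S.e T x z - S.e T x (S.m i z) = -((dN S.m T x z : ℝ) - dN S.m T x (S.m i z)) / T := by
    unfold Sys.e; ring
  rw [this, abs_div, abs_neg, abs_of_pos hT']
  gcongr

theorem e_ne_zero {x z : S.U} (h : S.e T x z ≠ 0) :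
    ∃ w : List (Fin 3), w.length ≤ T ∧ act S.m x w = z := by
  have hT' : (0 : ℝ) < T := by exact_mod_cast hT
  have h1 : dN S.m T x z < T := by
    rcases lt_or_eq_of_le (dN_le_cap S.m T x z) with h2 | h2
    · exact h2
    · exfalso
      apply h
      unfold Sys.e
      rw [h2, div_self hT'.ne', sub_self]
  obtain ⟨w, hw, hw'⟩ := dN_word h1
  exact ⟨w, by omega, hw'⟩

/-! #### facts on `zeta` -/

omit hT in
theorem zeta_nonneg (z : S.U) (a : S.A T) : 0 ≤ S.zeta T z a := by
  unfold Sys.zeta; positivity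

theorem zeta_le_one (z : S.U) (a : S.A T) : S.zeta T z a ≤ 1 := by
  classical
  have hT' : (0 : ℝ) < T := by exact_mod_cast hT
  unfold Sys.zeta
  rw [div_le_one hT']
  have : S.cnt T z a ≤ (Finset.Icc 1 T).card := Finset.card_filter_le _ _
  rw [Nat.card_Icc] at this
  have h2 : S.cnt T z a ≤ T := by omega
  exact_mod_cast h2

omit hT in
theorem Sys.Agr.mono {q q' : ℕ} {z : S.U} {a : S.A T} (h : S.Agr T q z a) (hq : q' ≤ q) :
    S.Agr T q' z a := fun w hw => h w (hw.trans hq)

omit hT in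
theorem zeta_ne_zero {z : S.U} {a : S.A T} (h : S.zeta T z a ≠ 0) : S.Agr T 1 z a := by
  classical
  by_contra h1
  apply h
  have h0 : S.cnt T z a = 0 := by
    unfold Sys.cnt
    rw [Finset.card_eq_zero, Finset.filter_eq_empty_iff]
    intro q hq h2
    exact h1 (h2.mono (Finset.mem_Icc.1 hq).1)
  rw [Sys.zeta, h0, Nat.cast_zero, zero_div]

theorem zeta_self (z : S.U) : S.zeta T z (S.pat T z) = 1 := by
  classical
  have hT' : (0 : ℝ) < T := by exact_mod_cast hT
  unfold Sys.zeta Sys.cnt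
  rw [Finset.filter_true_of_mem]
  · rw [Nat.card_Icc, Nat.add_sub_cancel, div_self hT'.ne']
  · intro q _ w _
    rfl

omit hT in
theorem cnt_step (i : Fin 3) (z y : S.U) :
    S.cnt T z (S.pat T y) ≤ S.cnt T (S.m i z) (S.pat T (S.m i y)) + 1 := by
  classical
  unfold Sys.cnt
  set s := (Finset.Icc 1 T).filter (fun q => S.Agr T q z (S.pat T y)) with hs
  set s' := (Finset.Icc 1 T).filter (fun q => S.Agr T q (S.m i z) (S.pat T (S.m i y))) with hs'
  have h1 : (s.erase 1).card ≤ s'.card := by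
    apply Finset.card_le_card_of_injOn (fun q => q - 1)
    · intro q hq
      simp only [Finset.coe_erase, Set.mem_sdiff, Finset.mem_coe, Set.mem_singleton_iff, hs,
        Finset.mem_filter, Finset.mem_Icc] at hq
      simp only [Finset.mem_coe, hs', Finset.mem_filter, Finset.mem_Icc]
      obtain ⟨⟨⟨h1, h2⟩, h3⟩, h4⟩ := hq
      refine ⟨⟨by omega, by omega⟩, ?_⟩
      intro w hw
      have h5 := h3 ⟨i :: w.1, by simp only [List.length_cons]; omega⟩
        (by simp only [List.length_cons]; omega)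
      simpa [Sys.pat, act] using h5
    · intro a ha b hb hab
      simp only [Finset.coe_erase, Set.mem_sdiff, Finset.mem_coe, Set.mem_singleton_iff, hs,
        Finset.mem_filter, Finset.mem_Icc] at ha hb
      simp only at hab
      omega
  have h2 : s.card ≤ (s.erase 1).card + 1 := by
    have := Finset.pred_card_le_card_erase (s := s) (a := 1)
    omega
  omega

theorem zeta_step (i : Fin 3) (z y : S.U) :
    |S.zeta T (S.m i z) (S.pat T (S.m i y)) - S.zeta T z (S.pat T y)| ≤ 1 / T := by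
  have hT' : (0 : ℝ) < T := by exact_mod_cast hT
  have h1 := cnt_step (T := T) i z y
  have h2 := cnt_step (T := T) i (S.m i z) (S.m i y)
  rw [S.inv, S.inv] at h2
  have h1' : (S.cnt T z (S.pat T y) : ℝ) ≤ S.cnt T (S.m i z) (S.pat T (S.m i y)) + 1 := by
    exact_mod_cast h1
  have h2' : (S.cnt T (S.m i z) (S.pat T (S.m i y)) : ℝ) ≤ S.cnt T z (S.pat T y) + 1 := by
    exact_mod_cast h2
  unfold Sys.zeta
  rw [← sub_div, abs_div, abs_of_pos hT']
  gcongr
  rw [abs_le]
  constructor <;> linarith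

/-! #### uniqueness -/

omit hT in
theorem near_unique {x : S.U} {w w' : List (Fin 3)} (h : w.length + w'.length ≤ R)
    (hc : S.c (act S.m x w) = S.c (act S.m x w')) : act S.m x w = act S.m x w' := by
  have h1 := S.P1 (act S.m x w) (w.reverse ++ w') (by simpa using h)
  rw [act_append, act_reverse S.inv] at h1
  exact (h1 hc.symm).symm

omit hT in
theorem Agr_zero {z : S.U} {a : S.A T} {q : ℕ} (h : S.Agr T q z a) :
    S.c z = a ⟨[], by simp⟩ := h ⟨[], by simp⟩ (by simp)

theorem Agr_one {z y : S.U} {q : ℕ} (hq : 1 ≤ q) (h : S.Agr T q z (S.pat T y)) (i : Fin 3) :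
    S.c (S.m i z) = S.c (S.m i y) :=
  h ⟨[i], by simp; omega⟩ (by simpa using hq)

/-! #### facts on `Fn` -/

omit hT in
theorem mem_X_self (x : S.U) : x ∈ S.X (S.lev x) := (S.memX _ _).2 rfl

omit hT in
theorem term_ne_zero {W : S.U → S.MM T → ℝ} {z : S.U} {p : S.MM T}
    (h : W z p * S.zeta T z (S.pt T p) ≠ 0) : S.Agr T 1 z (S.pt T p) :=
  zeta_ne_zero (right_ne_zero_of_mul h)

/-- admissible weights -/
structure WInv (W : S.U → S.MM T → ℝ) : Prop where
  le : ∀ z p, |W z p| ≤ 1
  inv : ∀ (i : Fin 3) (z y : S.U), S.Agr T 1 z (S.pat T y) →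
    S.Agr T 1 (S.m i z) (S.pat T (S.m i y)) → W (S.m i z) (.inr (S.m i y)) = W z (.inr y)

theorem kern_le {W : S.U → S.MM T → ℝ} (hW : WInv W) (z : S.U) (p : S.MM T) :
    |W z p * S.zeta T z (S.pt T p)| ≤ 1 := by
  rw [abs_mul, abs_of_nonneg (zeta_nonneg _ _)]
  calc |W z p| * S.zeta T z (S.pt T p) ≤ 1 * 1 :=
        mul_le_mul (hW.le z p) (zeta_le_one hT _ _) (zeta_nonneg _ _) zero_le_one
    _ = 1 := one_mul 1

theorem Fn_le {W : S.U → S.MM T → ℝ} (hW : WInv W) (hR : 2 * T ≤ R) (x : S.U) (p : S.MM T) :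
    |S.Fn T W x p| ≤ 1 := by
  unfold Sys.Fn
  refine abs_sum_le_single _ _ zero_le_one ?_ ?_
  · intro z _
    rw [abs_mul, abs_of_nonneg (e_nonneg hT x z)]
    calc S.e T x z * |W z p * S.zeta T z (S.pt T p)| ≤ 1 * 1 :=
          mul_le_mul (e_le_one x z) (kern_le hT hW z p) (abs_nonneg _) zero_le_one
      _ = 1 := one_mul 1
  · intro z _ z' _ h h'
    obtain ⟨w, hw, rfl⟩ := e_ne_zero hT (left_ne_zero_of_mul h)
    obtain ⟨w', hw', rfl⟩ := e_ne_zero hT (left_ne_zero_of_mul h')
    refine near_unique (by omega) ?_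
    rw [Agr_zero (term_ne_zero (right_ne_zero_of_mul h)),
      Agr_zero (term_ne_zero (right_ne_zero_of_mul h'))]

theorem Fn_step_left {W : S.U → S.MM T → ℝ} (hW : WInv W) (hR : 2 * T + 2 ≤ R) (i : Fin 3)
    (x : S.U) (p : S.MM T) :
    |S.Fn T W x p - S.Fn T W (S.m i x) p| ≤ 1 / T := by
  have hT' : (0 : ℝ) < T := by exact_mod_cast hT
  unfold Sys.Fn
  rw [S.levm, ← Finset.sum_sub_distrib]
  have hterm : ∀ z, S.e T x z * (W z p * S.zeta T z (S.pt T p))
      - S.e T (S.m i x) z * (W z p * S.zeta T z (S.pt T p))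
      = (S.e T x z - S.e T (S.m i x) z) * (W z p * S.zeta T z (S.pt T p)) := fun z => by ring
  have hnz : ∀ z, S.e T x z - S.e T (S.m i x) z ≠ 0 →
      ∃ w : List (Fin 3), w.length ≤ T + 1 ∧ act S.m x w = z := by
    intro z h
    by_cases h1 : S.e T x z = 0
    · have h2 : S.e T (S.m i x) z ≠ 0 := by
        intro h2
        rw [h1, h2, sub_self] at h
        exact h rfl
      obtain ⟨w, hw, hw'⟩ := e_ne_zero hT h2
      exact ⟨i :: w, by simpa using hw, hw'⟩
    · obtain ⟨w, hw, hw'⟩ := e_ne_zero hT h1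
      exact ⟨w, by omega, hw'⟩
  refine abs_sum_le_single _ _ (by positivity) ?_ ?_
  · intro z _
    rw [hterm, abs_mul]
    calc |S.e T x z - S.e T (S.m i x) z| * |W z p * S.zeta T z (S.pt T p)| ≤ 1 / T * 1 :=
          mul_le_mul (e_step_left hT i x z) (kern_le hT hW z p) (abs_nonneg _) (by positivity)
      _ = 1 / T := mul_one _
  · intro z _ z' _ h h'
    rw [hterm] at h h'
    obtain ⟨w, hw, rfl⟩ := hnz z (left_ne_zero_of_mul h)
    obtain ⟨w', hw', rfl⟩ := hnz z' (left_ne_zero_of_mul h')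
    refine near_unique (by omega) ?_
    rw [Agr_zero (term_ne_zero (right_ne_zero_of_mul h)),
      Agr_zero (term_ne_zero (right_ne_zero_of_mul h'))]

theorem Fn_step_right {W : S.U → S.MM T → ℝ} (hW : WInv W) (hR : 2 * T + 2 ≤ R) (i : Fin 3)
    (x : S.U) (p : S.MM T) :
    |S.Fn T W x p - S.Fn T W x (S.mm T i p)| ≤ 2 / T := by
  have hT' : (0 : ℝ) < T := by exact_mod_cast hT
  rcases p with a | y
  · simp only [Sys.mm, sub_self, abs_zero]
    positivity
  · have hre : S.Fn T W x (S.mm T i (.inr y)) = ∑ z ∈ S.X (S.lev x),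
        S.e T x (S.m i z) * (W (S.m i z) (.inr (S.m i y)) *
          S.zeta T (S.m i z) (S.pat T (S.m i y))) := by
      unfold Sys.Fn
      symm
      refine Finset.sum_bij' (fun z _ => S.m i z) (fun z _ => S.m i z) ?_ ?_ ?_ ?_ ?_
      · intro z hz
        rw [S.memX] at hz ⊢
        rw [S.levm, hz]
      · intro z hz
        rw [S.memX] at hz ⊢
        rw [S.levm, hz]
      · intro z _
        exact S.inv i z
      · intro z _
        exact S.inv i z
      · intro z _
        rfl
    rw [hre]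
    unfold Sys.Fn
    rw [← Finset.sum_sub_distrib]
    have hnz : ∀ z, S.e T x z * (W z (.inr y) * S.zeta T z (S.pt T (.inr y)))
        - S.e T x (S.m i z) * (W (S.m i z) (.inr (S.m i y)) *
          S.zeta T (S.m i z) (S.pat T (S.m i y))) ≠ 0 →
        (∃ w : List (Fin 3), w.length ≤ T + 1 ∧ act S.m x w = z) ∧ S.c z = S.c y := by
      intro z h
      by_cases h1 : S.e T x z * (W z (.inr y) * S.zeta T z (S.pt T (.inr y))) = 0
      · have h2 : S.e T x (S.m i z) * (W (S.m i z) (.inr (S.m i y)) *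
          S.zeta T (S.m i z) (S.pat T (S.m i y))) ≠ 0 := by
          intro h2
          rw [h1, h2, sub_self] at h
          exact h rfl
        obtain ⟨w, hw, hw'⟩ := e_ne_zero hT (left_ne_zero_of_mul h2)
        refine ⟨⟨w ++ [i], by simpa using hw, ?_⟩, ?_⟩
        · rw [act_append, hw']
          exact S.inv i z
        · have h3 := zeta_ne_zero (right_ne_zero_of_mul (right_ne_zero_of_mul h2))
          have h4 := Agr_one hT le_rfl h3 i
          rwa [S.inv, S.inv] at h4
      · obtain ⟨w, hw, hw'⟩ := e_ne_zero hT (left_ne_zero_of_mul h1)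
        refine ⟨⟨w, by omega, hw'⟩, ?_⟩
        exact Agr_zero (zeta_ne_zero (right_ne_zero_of_mul (right_ne_zero_of_mul h1)))
    refine abs_sum_le_single _ _ (by positivity) ?_ ?_
    · intro z _
      have hk : |W z (.inr y) * S.zeta T z (S.pt T (.inr y)) - W (S.m i z) (.inr (S.m i y)) *
          S.zeta T (S.m i z) (S.pat T (S.m i y))| ≤ 1 / T := by
        have hz := zeta_step hT i z y
        change |W z (.inr y) * S.zeta T z (S.pat T y) - _| ≤ _
        by_cases h1 : S.zeta T z (S.pat T y) = 0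
        · rw [h1] at hz ⊢
          rw [mul_zero, zero_sub, abs_neg, abs_mul]
          rw [sub_zero] at hz
          calc _ ≤ 1 * (1 / (T : ℝ)) :=
                mul_le_mul (hW.le _ _) hz (abs_nonneg _) zero_le_one
            _ = 1 / T := one_mul _
        · by_cases h2 : S.zeta T (S.m i z) (S.pat T (S.m i y)) = 0
          · rw [h2] at hz ⊢
            rw [mul_zero, sub_zero, abs_mul]
            rw [zero_sub, abs_neg] at hz
            calc _ ≤ 1 * (1 / (T : ℝ)) :=
                  mul_le_mul (hW.le _ _) hz (abs_nonneg _) zero_le_one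
              _ = 1 / T := one_mul _
          · rw [hW.inv i z y (zeta_ne_zero h1) (zeta_ne_zero h2), ← mul_sub, abs_mul, abs_sub_comm]
            calc _ ≤ 1 * (1 / (T : ℝ)) :=
                  mul_le_mul (hW.le _ _) hz (abs_nonneg _) zero_le_one
              _ = 1 / T := one_mul _
      set k1 := W z (.inr y) * S.zeta T z (S.pt T (.inr y)) with hk1
      set k2 := W (S.m i z) (.inr (S.m i y)) * S.zeta T (S.m i z) (S.pat T (S.m i y)) with hk2
      have he := e_step_right hT i x z
      have h1 : S.e T x z * k1 - S.e T x (S.m i z) * k2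
          = (S.e T x z - S.e T x (S.m i z)) * k1 + S.e T x (S.m i z) * (k1 - k2) := by ring
      rw [h1]
      refine (abs_add_le _ _).trans ?_
      rw [abs_mul _ k1, abs_mul _ (k1 - k2), abs_of_nonneg (e_nonneg hT x (S.m i z))]
      calc |S.e T x z - S.e T x (S.m i z)| * |k1| + S.e T x (S.m i z) * |k1 - k2|
          ≤ 1 / T * 1 + 1 * (1 / T) := by
            refine add_le_add ?_ ?_
            · exact mul_le_mul he (kern_le hT hW z _) (abs_nonneg _) (by positivity)
            · exact mul_le_mul (e_le_one _ _) hk (abs_nonneg _) zero_le_one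
        _ = 2 / T := by ring
    · intro z _ z' _ h h'
      obtain ⟨⟨w, hw, rfl⟩, hc⟩ := hnz z h
      obtain ⟨⟨w', hw', rfl⟩, hc'⟩ := hnz z' h'
      exact near_unique (by omega) (by rw [hc, hc'])

theorem Fn_one_self (hR : T ≤ R) (x : S.U) (p : S.MM T) (hp : S.pt T p = S.pat T x) :
    S.Fn T (fun _ _ => 1) x p = 1 := by
  unfold Sys.Fn
  rw [Finset.sum_eq_single_of_mem x (mem_X_self x)]
  · rw [hp, e_self, zeta_self hT]
    norm_num
  · intro z _ hzx
    by_contra h
    obtain ⟨w, hw, hw'⟩ := e_ne_zero hT (left_ne_zero_of_mul h)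
    have h1 := Agr_zero (zeta_ne_zero (right_ne_zero_of_mul (right_ne_zero_of_mul h)))
    rw [hp] at h1
    have h2 := S.P1 x w (by omega) (by rw [hw']; exact h1)
    exact hzx (by rw [← hw', h2])

end facts

end P090
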