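import Vale.Agent.P090.Kernel

/-!
# P090, part 4a: labels
-/

namespace P090

variable {R : ℕ} {η : ℝ} (S : Sys R η) (T : ℕ)

/-- simultaneous moves inside the set of pairs which agree to depth one -/
def Sys.stp (a b : S.U × S.U) : Prop :=
  ∃ i, b = (S.m i a.1, S.m i a.2) ∧ S.Agr T 1 a.1 (S.pat T a.2) ∧ S.Agr T 1 b.1 (S.pat T b.2)

def Sys.Lab : Type := (S.U × S.A T) ⊕ Quot (S.stp T)

def Sys.lab (z : S.U) : S.MM T → S.Lab T
  | .inl a => .inl (z, a)
  | .inr y => .inr (Quot.mk _ (z, y))

variable {S T}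

theorem lab_inv (i : Fin 3) (z y : S.U) (h : S.Agr T 1 z (S.pat T y))
    (h' : S.Agr T 1 (S.m i z) (S.pat T (S.m i y))) :
    S.lab T (S.m i z) (.inr (S.m i y)) = S.lab T z (.inr y) := by
  unfold Sys.lab
  exact congrArg _ (Quot.sound ⟨i, rfl, h, h'⟩).symm

theorem stp_symm {a b : S.U × S.U} (h : S.stp T a b) : S.stp T b a := by
  obtain ⟨i, rfl, h1, h2⟩ := h
  exact ⟨i, by simp [S.inv], h2, h1⟩

theorem rtg_symm {a b : S.U × S.U} (h : Relation.ReflTransGen (S.stp T) a b) :
    Relation.ReflTransGen (S.stp T) b a := by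
  induction h with
  | refl => exact .refl
  | tail _ h ih => exact (Relation.ReflTransGen.single (stp_symm h)).trans ih

theorem chain_of_quot {a b : S.U × S.U} (h : Quot.mk (S.stp T) a = Quot.mk (S.stp T) b) :
    Relation.ReflTransGen (S.stp T) a b := by
  have h1 := Quot.eqvGen_exact h
  induction h1 with
  | rel x y hxy => exact Relation.ReflTransGen.single hxy
  | refl x => exact Relation.ReflTransGen.refl
  | symm x y h1 ih => exact rtg_symm (ih (Quot.eqvGen_sound h1))
  | trans x y z h1 h2 ih1 ih2 =>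
    exact (ih1 (Quot.eqvGen_sound h1)).trans (ih2 (Quot.eqvGen_sound h2))

theorem chain_good (hT : 0 < T) (hR : 1 ≤ R) {a b : S.U × S.U}
    (h : Relation.ReflTransGen (S.stp T) a b) (hb : S.Agr T 1 b.1 (S.pat T b.2)) :
    ∃ w, Good S.m a.1 w ∧ act S.m a.1 w = b.1 ∧
      ∀ u, u <+: w → S.c (act S.m a.1 u) = S.c (act S.m a.2 u) := by
  induction h using Relation.ReflTransGen.head_induction_on with
  | refl =>
    refine ⟨[], trivial, rfl, ?_⟩
    intro u hu
    rw [List.prefix_nil.1 hu]
    exact Agr_zero hb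
  | @head a' c' hac hcb ih =>
    obtain ⟨w, hw, hwb, hpre⟩ := ih
    obtain ⟨z, y⟩ := a'
    obtain ⟨i, rfl, h1, h2⟩ := hac
    dsimp only at h1 h2 hw hwb hpre ⊢
    have hzy : S.c z = S.c y := Agr_zero h1
    by_cases hz : S.m i z = z
    · have hy : S.m i y = y := by
        have h3 := Agr_one hT le_rfl h1 i
        have h4 := S.P1 y [i] (by simpa using hR)
        simp only [act] at h4
        exact h4 (by rw [← h3, hz, hzy])
      rw [hz] at hw hwb hpre
      rw [hy] at hpre
      exact ⟨w, hw, hwb, hpre⟩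
    · cases w with
      | nil =>
        refine ⟨[i], ⟨hz, by simp, trivial⟩, hwb, ?_⟩
        intro u hu
        rcases List.prefix_cons_iff.1 hu with rfl | ⟨u', rfl, hu'⟩
        · exact hzy
        · exact hpre u' hu'
      | cons k w' =>
        by_cases hk : k = i
        · subst hk
          obtain ⟨_, _, hw3⟩ := hw
          refine ⟨w', by rwa [S.inv] at hw3, by simpa [act, S.inv] using hwb, ?_⟩
          intro u hu
          have h5 := hpre (k :: u) (by simpa using hu)
          simpa [act, S.inv] using h5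
        · refine ⟨i :: k :: w', ⟨hz, by simpa using hk, hw⟩, hwb, ?_⟩
          intro u hu
          rcases List.prefix_cons_iff.1 hu with rfl | ⟨u', rfl, hu'⟩
          · exact hzy
          · exact hpre u' hu'

/-- Pairs with the same label: first coordinates are close. -/
theorem same_label (hT : 0 < T) (hR : 1 ≤ R) {j : ℕ} {z z' : S.U} {p p' : S.MM T}
    (hz : S.lev z = j) (hp : ∀ y, p = .inr y → S.lev y < j)
    (hz' : S.Agr T 1 z' (S.pt T p'))
    (h : S.lab T z p = S.lab T z' p') :
    ∃ w : List (Fin 3), w.length ≤ S.t j ∧ act S.m z w = z' := by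
  rcases p with a | y <;> rcases p' with a' | y'
  · simp only [Sys.lab] at h
    have h1 := Sum.inl.inj h
    exact ⟨[], by simp, (Prod.ext_iff.1 h1).1⟩
  · simp only [Sys.lab] at h
    exact absurd h (by simp)
  · simp only [Sys.lab] at h
    exact absurd h (by simp)
  · simp only [Sys.lab] at h
    obtain ⟨w, hw, hwz, hpre⟩ := chain_good hT hR (chain_of_quot (Sum.inr.inj h)) hz'
    refine ⟨w, ?_, hwz⟩
    by_contra hlen
    push Not at hlen
    have hy := hp y rfl
    simp only at hw hwz hpre
    have hgood : Good S.m z (w.take (S.t j)) := hw.pre (List.take_prefix _ _)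
    obtain ⟨u, hu, hne⟩ := S.P4 z y (w.take (S.t j)) (by rw [hz]; exact hy) hgood
      (by rw [hz, List.length_take]; omega)
    exact hne (hpre u (hu.trans (List.take_prefix _ _)))

end P090
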