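import Vale.Agent.P090.Words

/-!
# P090, part 3: the bounded metric spaces
-/

namespace P090

/-! ### An abstract construction of metrics -/

section Metric

variable {M : Type*} (mm : Fin 3 → M → M) (ell : M → M → ℝ) (r K : ℝ) (L : ℕ)

/-- the distance -/
noncomputable def dd (p q : M) : ℝ := min (dN mm L p q : ℝ) (r + ell p q)

structure MetricData : Prop where
  inv : ∀ i x, mm i (mm i x) = x
  self : ∀ p, ell p p = 0
  symm : ∀ p q, ell p q = ell q p
  tri : ∀ p q s, ell p s ≤ ell p q + ell q s
  nonneg : ∀ p q, 0 ≤ ell p q
  le : ∀ p q, ell p q ≤ K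
  step : ∀ i p, ell p (mm i p) ≤ 1
  one_le : 1 ≤ r
  cap : r + K ≤ L

variable {mm ell r K L}

theorem MetricData.L_pos (h : MetricData mm ell r K L) (p : M) : 0 < L := by
  have h1 := h.one_le
  have h2 := h.cap
  have h3 := h.nonneg p p
  have h4 := h.le p p
  have : (0 : ℝ) < L := by linarith
  exact_mod_cast this

theorem MetricData.ell_act (h : MetricData mm ell r K L) (w : List (Fin 3)) (p : M) :
    ell p (act mm p w) ≤ w.length := by
  induction w generalizing p with
  | nil => simp [act, h.self]
  | cons i w ih =>
    have h1 := h.tri p (mm i p) (act mm (mm i p) w)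
    have h2 := h.step i p
    have h3 := ih (mm i p)
    simp only [act, List.length_cons, Nat.cast_add, Nat.cast_one]
    linarith

theorem MetricData.ell_le_dN (h : MetricData mm ell r K L) (p q : M) :
    ell p q ≤ dN mm L p q := by
  rcases lt_or_eq_of_le (dN_le_cap mm L p q) with h1 | h1
  · obtain ⟨w, hw, hw'⟩ := dN_word h1
    rw [← hw, ← hw']
    exact h.ell_act w p
  · rw [h1]
    have := h.le p q
    have := h.cap
    have := h.one_le
    linarith

/-- The metric space. -/
@[reducible] noncomputable def MetricData.metricSpace (h : MetricData mm ell r K L) :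
    MetricSpace M where
  dist := dd mm ell r L
  dist_self p := by
    have h1 := h.self p
    have h2 := h.one_le
    simp only [dd, dN_self, Nat.cast_zero, h1, add_zero]
    exact min_eq_left (by linarith)
  dist_comm p q := by
    simp only [dd]
    rw [dN_comm h.inv, h.symm]
  dist_triangle p q s := by
    have h1 := h.one_le
    have h2 : (dN mm L p s : ℝ) ≤ dN mm L p q + dN mm L q s := by
      exact_mod_cast dN_triangle mm L p q s
    have h3 := h.tri p q s
    have h4 := h.ell_le_dN p q
    have h5 := h.ell_le_dN q s
    have h6 := h.nonneg p q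
    have h7 := h.nonneg q s
    simp only [dd]
    rcases le_total (dN mm L p q : ℝ) (r + ell p q) with ha | ha <;>
    rcases le_total (dN mm L q s : ℝ) (r + ell q s) with hb | hb
    · rw [min_eq_left ha, min_eq_left hb]
      exact (min_le_left _ _).trans h2
    · rw [min_eq_left ha, min_eq_right hb]
      exact (min_le_right _ _).trans (by linarith)
    · rw [min_eq_right ha, min_eq_left hb]
      exact (min_le_right _ _).trans (by linarith)
    · rw [min_eq_right ha, min_eq_right hb]
      exact (min_le_right _ _).trans (by linarith)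
  eq_of_dist_eq_zero := by
    intro p q hpq
    simp only [dd] at hpq
    have h1 := h.one_le
    have h2 := h.nonneg p q
    have h3 : (dN mm L p q : ℝ) = 0 := by
      rcases min_choice (dN mm L p q : ℝ) (r + ell p q) with h4 | h4
      · rw [← h4, hpq]
      · rw [h4] at hpq; linarith
    exact dN_eq_zero (h.L_pos p) (by exact_mod_cast h3)

theorem MetricData.sep (h : MetricData mm ell r K L) {p q : M} (hpq : p ≠ q) :
    1 ≤ dd mm ell r L p q := by
  refine le_min ?_ ?_
  · have : dN mm L p q ≠ 0 := fun h0 => hpq (dN_eq_zero (h.L_pos p) h0)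
    exact_mod_cast Nat.one_le_iff_ne_zero.2 this
  · have := h.one_le
    have := h.nonneg p q
    linarith

theorem MetricData.dd_le (h : MetricData mm ell r K L) (p q : M) :
    dd mm ell r L p q ≤ r + K := by
  have := h.le p q
  exact (min_le_right _ _).trans (by linarith)

theorem MetricData.dd_step (_h : MetricData mm ell r K L) (i : Fin 3) (p : M) :
    dd mm ell r L p (mm i p) ≤ 1 :=
  (min_le_left _ _).trans (by exact_mod_cast dN_step_le mm L i p)

theorem MetricData.lipCheck (h : MetricData mm ell r K L) (f : M → ℝ) {B s' K' : ℝ}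
    (hB : ∀ x, |f x| ≤ B) (hs : ∀ i x, |f x - f (mm i x)| ≤ s') (h1 : s' ≤ K')
    (h2 : 2 * B ≤ K' * r) (hs0 : 0 ≤ s') (p q : M) : |f p - f q| ≤ K' * dd mm ell r L p q := by
  have hr := h.one_le
  have hK' : 0 ≤ K' := hs0.trans h1
  have hfar : |f p - f q| ≤ K' * r := by
    have := hB p
    have := hB q
    have := abs_sub (f p) (f q)
    linarith
  have hact : ∀ (w : List (Fin 3)) (p : M), |f p - f (act mm p w)| ≤ s' * w.length := by
    intro w
    induction w with
    | nil => intro p; simp [act]
    | cons i w ih =>
      intro p
      have h3 := hs i p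
      have h4 := ih (mm i p)
      have h5 := abs_sub_le (f p) (f (mm i p)) (f (act mm (mm i p) w))
      simp only [act, List.length_cons, Nat.cast_add, Nat.cast_one]
      linarith
  unfold dd
  rcases min_choice (dN mm L p q : ℝ) (r + ell p q) with h4 | h4
  · rw [h4]
    rcases lt_or_eq_of_le (dN_le_cap mm L p q) with h5 | h5
    · obtain ⟨w, hw, hw'⟩ := dN_word h5
      have h6 := hact w p
      rw [hw', hw] at h6
      refine h6.trans ?_
      gcongr
    · rw [h5]
      refine hfar.trans ?_
      have h6 := h.cap
      have h7 := h.nonneg p p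
      have h8 := h.le p p
      gcongr
      linarith
  · rw [h4]
    refine hfar.trans ?_
    have h7 := h.nonneg p q
    gcongr
    linarith

end Metric

end P090
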