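import Vale.Agent.P090.Banach

/-!
# P090, part 5b: gluing countably many bounded spaces
-/

namespace P090

section retract

variable (M : ℕ → Type) [∀ n, MetricSpace (M n)] [∀ n, Nonempty (M n)]

attribute [local instance] Metric.Sigma.metricSpace

/-- The retraction of the glued space onto the piece `n`. -/
noncomputable def retr (n : ℕ) (p : Σ n, M n) : M n := by
  classical exact if h : p.1 = n then h ▸ p.2 else Nonempty.some inferInstance

omit [∀ n, MetricSpace (M n)] in
theorem retr_mk (n : ℕ) (x : M n) : retr M n ⟨n, x⟩ = x := by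
  unfold retr
  simp

omit [∀ n, MetricSpace (M n)] in
theorem retr_ne {n m : ℕ} (h : m ≠ n) (x : M m) :
    retr M n ⟨m, x⟩ = Nonempty.some (inferInstance : Nonempty (M n)) := by
  unfold retr
  simp [h]

theorem dist_retr_le (n : ℕ) (p q : Σ n, M n) : dist (retr M n p) (retr M n q) ≤ dist p q := by
  obtain ⟨i, x⟩ := p
  obtain ⟨j, y⟩ := q
  rcases eq_or_ne i n with hi | hi
  · subst hi
    rcases eq_or_ne j i with hj | hj
    · subst hj
      rw [retr_mk, retr_mk, Metric.Sigma.dist_same]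
    · rw [retr_mk, retr_ne M hj, Metric.Sigma.dist_ne hj.symm]
      have h1 : (0 : ℝ) ≤ dist (Nonempty.some (⟨y⟩ : Nonempty (M j))) y := dist_nonneg
      have h2 : (Nonempty.some (inferInstance : Nonempty (M i)))
        = Nonempty.some (⟨x⟩ : Nonempty (M i)) := rfl
      rw [h2]
      linarith
  · rcases eq_or_ne j n with hj | hj
    · subst hj
      rw [retr_mk, retr_ne M hi, Metric.Sigma.dist_ne hi]
      have h1 : (0 : ℝ) ≤ dist x (Nonempty.some (⟨x⟩ : Nonempty (M i))) := dist_nonneg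
      have h2 : (Nonempty.some (inferInstance : Nonempty (M j)))
        = Nonempty.some (⟨y⟩ : Nonempty (M j)) := rfl
      rw [h2]
      linarith
    · rw [retr_ne M hi, retr_ne M hj, dist_self]
      exact dist_nonneg

end retract

/-- Functionals on the glued space `Σ n, M n` (`Metric.Sigma.metricSpace`) restrict to functionals
on `M n`, because `M n` is a 1-Lipschitz retract (all other pieces are sent to the base point
`Nonempty.some _` of `M n`). -/
theorem functionals_retract (M : ℕ → Type) [∀ n, MetricSpace (M n)] [∀ n, Nonempty (M n)]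
    (n : ℕ) (D : ℝ) (hD : ∀ x y : M n, dist x y ≤ D) (lam : ℝ) (A : Finset (M n)) (ε : ℝ)
    (o : Σ n, M n) (o' : M n)
    (h : letI := Metric.Sigma.metricSpace (E := M)
      Nonempty (Functionals (Σ n, M n) o lam (A.map ⟨Sigma.mk n, sigma_mk_injective⟩) ε)) :
    Nonempty (Functionals (M n) o' lam A ε) := by
  classical
  let _ := Metric.Sigma.metricSpace (E := M)
  obtain ⟨S⟩ := h
  have hlip : ∀ (K : ℝ) (h : M n → ℝ), LipBd K h → LipBd K (fun p : Σ n, M n => h (retr M n p)) := by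
    intro K h hK
    refine ⟨hK.1, fun p q => (hK.2 _ _).trans ?_⟩
    exact mul_le_mul_of_nonneg_left (dist_retr_le M n p q) hK.1
  refine ⟨⟨fun x h => S.σ ⟨n, x⟩ (fun p => h (retr M n p)), ?_, ?_, ?_, ?_⟩⟩
  · intro x h₁ h₂ K₁ K₂ a b H₁ H₂
    exact S.lin ⟨n, x⟩ _ _ K₁ K₂ a b (hlip _ _ H₁) (hlip _ _ H₂)
  · intro K h hK x y
    have h1 := S.lip K _ (hlip K h hK) ⟨n, x⟩ ⟨n, y⟩
    have h2 : dist (⟨n, x⟩ : Σ n, M n) ⟨n, y⟩ = dist x y := Metric.Sigma.dist_same n x y
    rw [h2] at h1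
    exact h1
  · intro K h hK a ha
    have h1 := S.near K _ (hlip K h hK) ⟨n, a⟩ (Finset.mem_map.2 ⟨a, ha, rfl⟩)
    simpa only [retr_mk] using h1
  · intro δ hδ
    set c : ℝ := 1 + D + dist (⟨n, o'⟩ : Σ n, M n) o with hc
    have hD0 : 0 ≤ D := dist_nonneg.trans (hD o' o')
    have hd0 : 0 ≤ dist (⟨n, o'⟩ : Σ n, M n) o := dist_nonneg
    have hc0 : 0 < c := by linarith
    obtain ⟨F, hF⟩ := S.tail (δ / c) (by positivity)
    refine ⟨F.image (retr M n), fun K h hK hz x => ?_⟩
    have h1 := hF K _ (hlip K h hK) (fun p hp => hz _ (Finset.mem_image_of_mem _ hp)) ⟨n, x⟩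
    refine h1.trans ?_
    have h2 : dist (⟨n, x⟩ : Σ n, M n) o ≤ D + dist (⟨n, o'⟩ : Σ n, M n) o := by
      refine (dist_triangle _ (⟨n, o'⟩ : Σ n, M n) _).trans ?_
      have h3 : dist (⟨n, x⟩ : Σ n, M n) ⟨n, o'⟩ = dist x o' := Metric.Sigma.dist_same n x o'
      rw [h3]
      linarith [hD x o']
    have hK0 := hK.1
    have h4 : 1 + dist (⟨n, x⟩ : Σ n, M n) o ≤ c := by linarith
    have h5 : 0 ≤ δ / c * K := by positivity
    calc δ / c * K * (1 + dist (⟨n, x⟩ : Σ n, M n) o) ≤ δ / c * K * c := by gcongr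
      _ = δ * K := by field_simp
      _ ≤ δ * K * (1 + dist x o') := by
          have h6 : 0 ≤ δ * K := by positivity
          have h7 : (0 : ℝ) ≤ dist x o' := dist_nonneg
          nlinarith

/-- Enlarging the norm bound. -/
theorem Functionals.mono {M : Type*} [MetricSpace M] {o : M} {lam lam' : ℝ} {A : Finset M} {ε : ℝ}
    (S : Functionals M o lam A ε) (hl : lam ≤ lam') : Nonempty (Functionals M o lam' A ε) :=
  ⟨{ σ := S.σ
     lin := S.lin
     lip := fun K h hK x y => (S.lip K h hK x y).trans (by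
        have := hK.1
        have : (0 : ℝ) ≤ dist x y := dist_nonneg
        gcongr)
     near := S.near
     tail := S.tail }⟩

theorem wedge
    (hbad : ∀ lam : ℝ, ∃ (M : Type) (_ : MetricSpace M), Countable M ∧ Nonempty M ∧
      (∀ x y : M, x ≠ y → 1 ≤ dist x y) ∧ (∃ D : ℝ, ∀ x y : M, dist x y ≤ D) ∧
      ∀ o : M, ∃ (A : Finset M) (ε : ℝ), 0 < ε ∧ IsEmpty (Functionals M o lam A ε)) :
    ∃ (M : Type) (_ : MetricSpace M), Countable M ∧ Nonempty M ∧
      (∀ x y : M, x ≠ y → 1 ≤ dist x y) ∧ ∀ o : M, ¬ BAP (FreeSpace M o) := by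
  classical
  choose M iM hc hn hu hD hA using fun n : ℕ => hbad (n : ℝ)
  let _ := Metric.Sigma.metricSpace (E := M)
  refine ⟨Σ n, M n, inferInstance, inferInstance, ⟨⟨0, (hn 0).some⟩⟩, ?_, ?_⟩
  · rintro ⟨i, x⟩ ⟨j, y⟩ hxy
    rcases eq_or_ne i j with h | h
    · subst h
      have h3 : dist (⟨i, x⟩ : Σ n, M n) ⟨i, y⟩ = dist x y := Metric.Sigma.dist_same i x y
      rw [h3]
      exact hu i x y fun h => hxy (by rw [h])
    · exact Metric.Sigma.one_le_dist_of_ne h x y
  · rintro o ⟨lam, hlam, hB⟩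
    obtain ⟨n, hnlam⟩ := exists_nat_ge lam
    obtain ⟨D, hD⟩ := hD n
    obtain ⟨A, ε, hε, hemp⟩ := hA n (hn n).some
    have h1 := functionals_of_lambdaBAP o hB (by linarith)
      (A.map ⟨Sigma.mk n, sigma_mk_injective⟩) hε
    obtain ⟨S⟩ := functionals_retract M n D hD lam A ε o (hn n).some h1
    obtain ⟨S'⟩ := S.mono hnlam
    exact hemp.false S'

end P090
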