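import Vale.Agent.P090.Basic

/-!
# P090, part 1: word combinatorics, distances, tree facts

All statements are about three involutions `m i`.
-/

namespace P090

variable {U : Type*} {m : Fin 3 → U → U}

theorem act_append (m : Fin 3 → U → U) (x : U) (u v : List (Fin 3)) :
    act m x (u ++ v) = act m (act m x u) v := by
  induction u generalizing x with
  | nil => rfl
  | cons a u ih => exact ih (m a x)

theorem good_cons {x : U} {i : Fin 3} {w : List (Fin 3)} :
    Good m x (i :: w) ↔ m i x ≠ x ∧ w.head? ≠ some i ∧ Good m (m i x) w := Iff.rfl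

theorem act_cons (m : Fin 3 → U → U) (x : U) (i : Fin 3) (w : List (Fin 3)) :
    act m x (i :: w) = act m (m i x) w := rfl

theorem act_mem {S : Set U} (hS : ∀ x ∈ S, ∀ i, m i x ∈ S) {x : U} (hx : x ∈ S)
    (w : List (Fin 3)) : act m x w ∈ S := by
  induction w generalizing x with
  | nil => exact hx
  | cons a w ih => exact ih (hS x hx a)

theorem act_reverse (hinv : ∀ i x, m i (m i x) = x) (x : U) (w : List (Fin 3)) :
    act m (act m x w) w.reverse = x := by
  induction w generalizing x with
  | nil => rfl
  | cons a w ih =>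
    rw [act_cons, List.reverse_cons, act_append, ih]
    exact hinv a x

theorem good_append {x : U} {u v : List (Fin 3)} :
    Good m x (u ++ v) ↔
      Good m x u ∧ Good m (act m x u) v ∧ ∀ i, u.getLast? = some i → v.head? ≠ some i := by
  induction u generalizing x with
  | nil => simp [Good, act]
  | cons a u ih =>
    rw [List.cons_append, good_cons, good_cons, act_cons, ih]
    cases u with
    | nil =>
      simp only [List.nil_append, List.head?_nil, List.getLast?_singleton, Option.some.injEq,
        forall_eq', List.getLast?_nil]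
      simp only [Good, act]
      simp
      tauto
    | cons b u =>
      simp only [List.cons_append, List.head?_cons, List.getLast?_cons_cons]
      tauto

theorem Good.reverse (hinv : ∀ i x, m i (m i x) = x) {x : U} {w : List (Fin 3)}
    (hw : Good m x w) : Good m (act m x w) w.reverse := by
  induction w generalizing x with
  | nil => trivial
  | cons a w ih =>
    rw [act_cons, List.reverse_cons, good_append, act_reverse hinv]
    obtain ⟨h1, h2, h3⟩ := hw
    refine ⟨ih h3, ⟨?_, by simp, trivial⟩, ?_⟩
    · rw [hinv]; exact h1.symm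
    · intro i hi h
      rw [List.getLast?_reverse] at hi
      simp at h
      subst h
      exact h2 hi

/-- free reduction -/
theorem exists_good (hinv : ∀ i x, m i (m i x) = x) (x : U) (w : List (Fin 3)) :
    ∃ w', Good m x w' ∧ w'.length ≤ w.length ∧ act m x w' = act m x w := by
  induction w generalizing x with
  | nil => exact ⟨[], trivial, le_rfl, rfl⟩
  | cons a w ih =>
    obtain ⟨w₁, h1, h2, h3⟩ := ih (m a x)
    by_cases hfix : m a x = x
    · refine ⟨w₁, by rwa [hfix] at h1, by simp; omega, ?_⟩
      rw [act_cons, ← h3, hfix]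
    · by_cases hh : w₁.head? = some a
      · cases w₁ with
        | nil => simp at hh
        | cons b w₂ =>
          simp at hh
          subst hh
          obtain ⟨h4, h5, h6⟩ := h1
          rw [hinv] at h6
          refine ⟨w₂, h6, by simp at h2 ⊢; omega, ?_⟩
          rw [act_cons, ← h3, act_cons, hinv]
      · exact ⟨a :: w₁, ⟨hfix, hh, h1⟩, by simp; omega, by rw [act_cons, act_cons, h3]⟩

theorem Good.pre {x : U} {u w : List (Fin 3)} (hw : Good m x w) (hu : u <+: w) :
    Good m x u := by
  obtain ⟨v, rfl⟩ := hu
  exact (good_append.1 hw).1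

/-- uniqueness of short `Good` words between two given points -/
theorem good_unique (hinv : ∀ i x, m i (m i x) = x) {S : Set U} (hS : ∀ x ∈ S, ∀ i, m i x ∈ S)
    {g : ℕ} (hg : Girth m S g) {x : U} (hx : x ∈ S) {w w' : List (Fin 3)}
    (hw : Good m x w) (hw' : Good m x w') (h : act m x w = act m x w')
    (hl : w.length + w'.length ≤ g) : w = w' := by
  induction w generalizing x w' with
  | nil =>
    by_contra hne
    exact hg x hx w' (fun h0 => hne h0.symm) (by simpa using hl) hw' h.symm
  | cons a w ih =>
    cases w' with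
    | nil =>
      exact absurd h (hg x hx (a :: w) (by simp) (by simpa using hl) hw)
    | cons b w' =>
      by_cases hab : a = b
      · subst hab
        rw [ih (hS x hx a) hw.2.2 hw'.2.2 h (by simp at hl; omega)]
      · exfalso
        have h1 : Good m (act m x (a :: w)) ((a :: w).reverse ++ (b :: w')) := by
          rw [good_append, act_reverse hinv]
          refine ⟨hw.reverse hinv, hw', ?_⟩
          intro i hi h
          rw [List.getLast?_reverse] at hi
          simp at h hi
          exact hab (hi.trans h.symm)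
        refine hg _ (act_mem hS hx (a :: w)) _ (by simp) (by simp at hl ⊢; omega) h1 ?_
        rw [act_append, act_reverse hinv, h]

theorem dN_le_cap (m : Fin 3 → U → U) (L : ℕ) (x z : U) : dN m L x z ≤ L :=
  Nat.sInf_le (Or.inr rfl)

theorem dN_le (m : Fin 3 → U → U) (L : ℕ) (x : U) (w : List (Fin 3)) :
    dN m L x (act m x w) ≤ w.length :=
  Nat.sInf_le (Or.inl ⟨w, rfl, rfl⟩)

theorem dN_word {L : ℕ} {x z : U} (h : dN m L x z < L) :
    ∃ w : List (Fin 3), w.length = dN m L x z ∧ act m x w = z := by
  have h1 : dN m L x z ∈ ({n | ∃ w : List (Fin 3), w.length = n ∧ act m x w = z} ∪ {L} : Set ℕ) :=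
    Nat.sInf_mem ⟨L, Or.inr rfl⟩
  rcases h1 with h1 | h1
  · exact h1
  · exact absurd h1 h.ne

theorem dN_self (m : Fin 3 → U → U) (L : ℕ) (x : U) : dN m L x x = 0 :=
  Nat.le_zero.1 (dN_le m L x [])

theorem dN_eq_zero {L : ℕ} (hL : 0 < L) {x z : U} (h : dN m L x z = 0) : x = z := by
  obtain ⟨w, h1, h2⟩ := dN_word (m := m) (L := L) (x := x) (z := z) (by omega)
  rw [h] at h1
  rw [List.length_eq_zero_iff.1 h1] at h2
  exact h2

theorem dN_comm_le (hinv : ∀ i x, m i (m i x) = x) (L : ℕ) (x z : U) :
    dN m L x z ≤ dN m L z x := by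
  rcases lt_or_ge (dN m L z x) L with h | h
  · obtain ⟨w, h1, h2⟩ := dN_word h
    have h3 := dN_le m L x w.reverse
    rw [← h2, act_reverse hinv, h2] at h3
    rw [← h1]
    simpa using h3
  · exact (dN_le_cap m L x z).trans h

theorem dN_comm (hinv : ∀ i x, m i (m i x) = x) (L : ℕ) (x z : U) :
    dN m L x z = dN m L z x :=
  le_antisymm (dN_comm_le hinv L x z) (dN_comm_le hinv L z x)

theorem dN_triangle (m : Fin 3 → U → U) (L : ℕ) (x y z : U) :
    dN m L x z ≤ dN m L x y + dN m L y z := by
  rcases lt_or_ge (dN m L x y) L with h | h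
  · rcases lt_or_ge (dN m L y z) L with h' | h'
    · obtain ⟨w, h1, h2⟩ := dN_word h
      obtain ⟨w', h1', h2'⟩ := dN_word h'
      have h3 := dN_le m L x (w ++ w')
      rw [act_append, h2, h2', List.length_append, h1, h1'] at h3
      exact h3
    · exact (dN_le_cap m L x z).trans (by omega)
  · exact (dN_le_cap m L x z).trans (by omega)

theorem dN_step_le (m : Fin 3 → U → U) (L : ℕ) (i : Fin 3) (x : U) : dN m L x (m i x) ≤ 1 :=
  dN_le m L x [i]

/-- the length of a short `Good` word is the distance -/
theorem dN_good (hinv : ∀ i x, m i (m i x) = x) {S : Set U} (hS : ∀ x ∈ S, ∀ i, m i x ∈ S)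
    {g : ℕ} (hg : Girth m S g) {x : U} (hx : x ∈ S) {w : List (Fin 3)} {L : ℕ}
    (hw : Good m x w) (hl : 2 * w.length ≤ g) (hL : w.length ≤ L) :
    dN m L x (act m x w) = w.length := by
  refine le_antisymm (dN_le m L x w) ?_
  by_contra hlt
  push Not at hlt
  obtain ⟨w₁, h1, h2⟩ := dN_word (hlt.trans_le hL)
  obtain ⟨w₂, h3, h4, h5⟩ := exists_good hinv x w₁
  have h6 := good_unique hinv hS hg hx hw h3 (by rw [h5, h2]) (by omega)
  rw [← h6] at h4
  omega

/-- existence of a geodesic `Good` word -/
theorem exists_geod (hinv : ∀ i x, m i (m i x) = x) {L : ℕ} {x z : U} (h : dN m L x z < L) :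
    ∃ w : List (Fin 3), Good m x w ∧ act m x w = z ∧ w.length = dN m L x z := by
  obtain ⟨w, h1, h2⟩ := dN_word h
  obtain ⟨w', h3, h4, h5⟩ := exists_good hinv x w
  refine ⟨w', h3, by rw [h5, h2], le_antisymm (by omega) ?_⟩
  have := dN_le m L x w'
  rwa [h5, h2] at this

theorem dN_eq_of_good (hinv : ∀ i x, m i (m i x) = x) {S : Set U} (hS : ∀ x ∈ S, ∀ i, m i x ∈ S)
    {g : ℕ} (hg : Girth m S g) {x z : U} (hx : x ∈ S) {w : List (Fin 3)} {L n : ℕ}
    (hw : Good m x w) (hz : act m x w = z) (hn : w.length = n) (hl : 2 * n ≤ g) (hL : n ≤ L) :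
    dN m L x z = n := by
  subst hz hn
  exact dN_good hinv hS hg hx hw hl hL

/-- `w` does not start with `j`: `j :: w` is `Good` from `m j x`. -/
theorem Good.cons_inv (hinv : ∀ i x, m i (m i x) = x) {x : U} {w : List (Fin 3)} (hw : Good m x w)
    {j : Fin 3} (hj : m j x ≠ x) (hh : w.head? ≠ some j) : Good m (m j x) (j :: w) :=
  ⟨by rw [hinv]; exact hj.symm, hh, by rwa [hinv]⟩

theorem Good.snoc {x : U} {w : List (Fin 3)} (hw : Good m x w)
    {i : Fin 3} (hi : m i (act m x w) ≠ act m x w) (hh : w.getLast? ≠ some i) :
    Good m x (w ++ [i]) := by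
  rw [good_append]
  refine ⟨hw, ⟨hi, by simp, trivial⟩, ?_⟩
  intro k hk h
  simp at h
  subst h
  exact hh hk

theorem Good.init {x : U} {w : List (Fin 3)} {i : Fin 3} (hw : Good m x (w ++ [i])) :
    Good m x w ∧ m i (act m x w) ≠ act m x w ∧ w.getLast? ≠ some i := by
  obtain ⟨h1, h2, h3⟩ := good_append.1 hw
  exact ⟨h1, h2.1, fun h => h3 i h (by simp)⟩

/-- Mixed second difference of a function of the distance, in a locally tree-like graph. -/
theorem second_diff (hinv : ∀ i x, m i (m i x) = x) {S : Set U} (hS : ∀ x ∈ S, ∀ i, m i x ∈ S)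
    {g L T : ℕ} (hg : Girth m S g) (η : ℕ → ℝ) {s₂ : ℝ} (hT : ∀ t, T ≤ t → η t = 0)
    (h2 : ∀ t, |η t - 2 * η (t + 1) + η (t + 2)| ≤ s₂) (h0 : 2 * |η 0 - η 1| ≤ s₂)
    (hL : T + 4 ≤ L) (hgT : 2 * T + 12 ≤ g) {x z : U} (hx : x ∈ S) (hz : z ∈ S) (i j : Fin 3) :
    |(η (dN m L x z) - η (dN m L (m j x) z))
      - (η (dN m L x (m i z)) - η (dN m L (m j x) (m i z)))| ≤ s₂ := by
  have hs : 0 ≤ s₂ := le_trans (by positivity) h0
  by_cases hj : m j x = x
  · rw [hj]; simpa using hs
  by_cases hi : m i z = z
  · rw [hi]; simpa using hs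
  rcases lt_or_ge (T + 1) (dN m L x z) with hfar | hnear
  · -- everything is far
    have a1 := dN_triangle m L x (m j x) z
    have a2 := dN_step_le m L j x
    have a3 := dN_triangle m L x (m i z) z
    have a4 : dN m L (m i z) z ≤ 1 := by rw [dN_comm hinv]; exact dN_step_le m L i z
    have a5 := dN_triangle m L (m j x) (m i z) z
    have e1 := hT (dN m L x z) (by omega)
    have e2 := hT (dN m L (m j x) z) (by omega)
    have e3 := hT (dN m L x (m i z)) (by omega)
    have e4 := hT (dN m L (m j x) (m i z)) (by omega)
    rw [e1, e2, e3, e4]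
    simpa using hs
  obtain ⟨w, hw, hwz, hwl⟩ := exists_geod hinv (m := m) (L := L) (x := x) (z := z) (by omega)
  have hjx : m j x ∈ S := hS x hx j
  set n := dN m L x z with hn
  have key : ∀ {x' z' : U} {w' : List (Fin 3)} {n' : ℕ}, x' ∈ S → Good m x' w' →
      act m x' w' = z' → w'.length = n' → n' ≤ n + 2 → dN m L x' z' = n' :=
    fun hx' hw' hz' hl' hn' => dN_eq_of_good hinv hS hg hx' hw' hz' hl' (by omega) (by omega)
  by_cases hstart : w.head? = some j
  · -- `w = j :: w'`
    obtain ⟨w', rfl⟩ : ∃ w', w = j :: w' := by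
      cases w with
      | nil => simp at hstart
      | cons b w' => simp at hstart; subst hstart; exact ⟨w', rfl⟩
    have hw' : Good m (m j x) w' := hw.2.2
    have hwz' : act m (m j x) w' = z := hwz
    have hl' : w'.length + 1 = n := by simpa using hwl
    have d1 : dN m L (m j x) z = w'.length := key hjx hw' hwz' rfl (by omega)
    by_cases hend : (j :: w').getLast? = some i
    · -- ends with `i`
      rcases List.eq_nil_or_concat w' with rfl | ⟨w'', b, rfl⟩
      · simp at hend
        subst hend
        have hzx : z = m j x := hwz'.symm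
        have d2 : dN m L x (m j z) = 0 := by rw [hzx, hinv, dN_self]
        have d3 : dN m L (m j x) (m j z) = 1 := by
          refine key (w' := [j]) hjx ?_ ?_ rfl (by simp at hl'; omega)
          · exact ⟨by rw [hinv]; exact fun h => hj h.symm, by simp, trivial⟩
          · rw [hzx]; simp [act]
        simp at hl' d1
        rw [d1, d2, d3, ← hl']
        rw [show η 1 - η 0 - (η 0 - η 1) = -(2 * (η 0 - η 1)) by ring, abs_neg, abs_mul]
        simpa using h0
      · have hb : b = i := by
          have : (j :: (w'' ++ [b])).getLast? = some b := by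
            rw [← List.cons_append, List.getLast?_append]; simp
          rw [List.concat_eq_append] at hend
          rw [this] at hend
          simpa using hend
        subst hb
        rw [List.concat_eq_append] at *
        obtain ⟨g1, g2, g3⟩ := hw'.init
        have hz2 : m b z = act m (m j x) w'' := by
          rw [← hwz', act_append]; exact hinv b _
        have d2 : dN m L (m j x) (m b z) = w''.length :=
          key hjx g1 hz2.symm rfl (by simp at hl'; omega)
        have hw3 : Good m x (j :: w'') := hw.pre ⟨[b], by simp⟩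
        have d3 : dN m L x (m b z) = w''.length + 1 :=
          key hx hw3 (by rw [hz2]; rfl) (by simp) (by simp at hl'; omega)
        have hl2 : n = w''.length + 2 := by simp at hl'; omega
        rw [d1, d2, d3, hl2]
        have h3 := h2 w''.length
        simp only [List.length_append, List.length_singleton]
        rw [show η (w''.length + 2) - η (w''.length + 1) - (η (w''.length + 1) - η w''.length) =
          η w''.length - 2 * η (w''.length + 1) + η (w''.length + 2) by ring]
        exact h3
    · -- does not end with `i`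
      have hzne : m i (act m x (j :: w')) ≠ act m x (j :: w') := by rw [hwz]; exact hi
      have hw3 : Good m x ((j :: w') ++ [i]) := hw.snoc hzne hend
      have d2 : dN m L x (m i z) = n + 1 :=
        key hx hw3 (by rw [act_append, hwz]; rfl) (by simp; omega) (by omega)
      have hw4 : Good m (m j x) (w' ++ [i]) := hw3.2.2
      have d3 : dN m L (m j x) (m i z) = n :=
        key hjx hw4 (by rw [act_append, hwz']; rfl) (by simp; omega) (by omega)
      rw [d1, d2, d3, ← hl']
      have h3 := h2 w'.length
      rw [show η (w'.length + 1) - η w'.length - (η (w'.length + 1 + 1) - η (w'.length + 1)) =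
          -(η w'.length - 2 * η (w'.length + 1) + η (w'.length + 2)) by ring, abs_neg]
      exact h3
  · -- `j :: w` is good from `m j x`
    have hwj : Good m (m j x) (j :: w) := hw.cons_inv hinv hj hstart
    have hwjz : act m (m j x) (j :: w) = z := by rw [act_cons, hinv, hwz]
    have d1 : dN m L (m j x) z = n + 1 := key hjx hwj hwjz (by simp; omega) (by omega)
    by_cases hend : w.getLast? = some i
    · obtain ⟨w', rfl⟩ : ∃ w', w = w' ++ [i] := by
        rcases List.eq_nil_or_concat w with rfl | ⟨w', b, rfl⟩
        · simp at hend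
        · rw [List.concat_eq_append] at *
          simp at hend
          subst hend
          exact ⟨w', rfl⟩
      obtain ⟨g1, g2, g3⟩ := hw.init
      have hl' : w'.length + 1 = n := by simpa using hwl
      have hz2 : m i z = act m x w' := by
        rw [← hwz, act_append]; exact hinv i _
      have d2 : dN m L x (m i z) = w'.length := key hx g1 hz2.symm rfl (by omega)
      have hw3 : Good m (m j x) (j :: w') := by
        refine hwj.pre ⟨[i], by simp⟩
      have d3 : dN m L (m j x) (m i z) = w'.length + 1 :=
        key hjx hw3 (by rw [hz2, act_cons, hinv]) (by simp) (by omega)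
      rw [d1, d2, d3, ← hl']
      have h3 := h2 w'.length
      rw [show η (w'.length + 1) - η (w'.length + 1 + 1) - (η w'.length - η (w'.length + 1)) =
          -(η w'.length - 2 * η (w'.length + 1) + η (w'.length + 2)) by ring, abs_neg]
      exact h3
    · have hzne : m i (act m x w) ≠ act m x w := by rw [hwz]; exact hi
      have hw3 : Good m x (w ++ [i]) := hw.snoc hzne hend
      have d2 : dN m L x (m i z) = n + 1 :=
        key hx hw3 (by rw [act_append, hwz]; rfl) (by simp; omega) (by omega)
      by_cases hij : w = [] ∧ i = j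
      · obtain ⟨rfl, rfl⟩ := hij
        have hxz : x = z := hwz
        subst hxz
        have hn0 : n = 0 := by simpa using hwl.symm
        rw [d1, d2, dN_self, hn0]
        rw [show η 0 - η (0 + 1) - (η (0 + 1) - η 0) = 2 * (η 0 - η 1) by ring, abs_mul]
        simpa using h0
      · have hw4 : Good m (m j x) (j :: (w ++ [i])) := by
          refine hw3.cons_inv hinv hj ?_
          cases w with
          | nil =>
            simp at hij ⊢
            exact hij
          | cons b w => simpa using hstart
        have d3 : dN m L (m j x) (m i z) = n + 2 :=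
          key hjx hw4 (by rw [act_cons, hinv, act_append, hwz]; rfl) (by simp; omega) (by omega)
        rw [d1, d2, d3]
        have h3 := h2 n
        rw [show η n - η (n + 1) - (η (n + 1) - η (n + 2)) =
          η n - 2 * η (n + 1) + η (n + 2) by ring]
        exact h3

/-- Isoperimetry of finite pieces of a tree.
Proof: let `δ x = dN m (g) z0 x` and `sg x i = sign (δ (m i x) - δ x)`; then
`∑ |F x - F (m i x)| ≥ ∑ sg x i * (F x - F (m i x)) = 2 ∑ sg x i * F x` (antisymmetry of `sg` under
`x ↦ m i x`), and `∑ i, sg x i ≥ 1 - defi m x` on the support of `F`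
(at most one letter decreases `δ`, and a moving letter changes `δ`). -/
theorem iso (hinv : ∀ i x, m i (m i x) = x) {X : Finset U} (hX : ∀ x ∈ X, ∀ i, m i x ∈ X)
    {g q : ℕ} (hg : Girth m (X : Set U) g) (hq : 2 * q + 4 ≤ g) (z0 : U) (hz0 : z0 ∈ X)
    (F : U → ℝ) (hF : ∀ x, 0 ≤ F x)
    (hsupp : ∀ x ∈ X, F x ≠ 0 → ∃ w : List (Fin 3), w.length ≤ q ∧ act m z0 w = x) :
    2 * ∑ x ∈ X, (1 - defi m x) * F x ≤ ∑ x ∈ X, ∑ i, |F x - F (m i x)| := by
  classical
  set δ : U → ℕ := fun x => dN m g z0 x with hδ
  set sg : U → Fin 3 → ℝ := fun x i =>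
    if δ x < δ (m i x) then 1 else if δ (m i x) < δ x then -1 else 0 with hsg
  have hanti : ∀ x i, sg (m i x) i = -sg x i := by
    intro x i
    simp only [hsg, hinv]
    rcases lt_trichotomy (δ x) (δ (m i x)) with h | h | h
    · simp [h, h.not_gt]
    · simp [h]
    · simp [h, h.not_gt]
  have hle : ∀ x i, sg x i * (F x - F (m i x)) ≤ |F x - F (m i x)| := by
    intro x i
    simp only [hsg]
    split_ifs
    · linarith [le_abs_self (F x - F (m i x))]
    · linarith [neg_le_abs (F x - F (m i x))]
    · linarith [abs_nonneg (F x - F (m i x))]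
  have hswap : ∀ i, ∑ x ∈ X, sg x i * F (m i x) = -∑ x ∈ X, sg x i * F x := by
    intro i
    rw [← Finset.sum_neg_distrib]
    refine Finset.sum_bij' (fun x _ => m i x) (fun x _ => m i x) (fun x hx => hX x hx i)
      (fun x hx => hX x hx i) (fun x _ => hinv i x) (fun x _ => hinv i x) fun x _ => ?_
    rw [hanti]; ring
  have h1 : ∑ x ∈ X, ∑ i, sg x i * (F x - F (m i x)) = 2 * ∑ x ∈ X, (∑ i, sg x i) * F x := by
    have e1 : ∑ x ∈ X, ∑ i, sg x i * (F x - F (m i x)) =
        ∑ i, (∑ x ∈ X, sg x i * F x - ∑ x ∈ X, sg x i * F (m i x)) := by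
      rw [Finset.sum_comm]
      refine Finset.sum_congr rfl fun i _ => ?_
      rw [← Finset.sum_sub_distrib]
      exact Finset.sum_congr rfl fun x _ => by ring
    have e2 : ∑ x ∈ X, (∑ i, sg x i) * F x = ∑ i, ∑ x ∈ X, sg x i * F x := by
      rw [Finset.sum_comm]
      exact Finset.sum_congr rfl fun x _ => Finset.sum_mul _ _ _
    rw [e1, e2, Finset.mul_sum]
    refine Finset.sum_congr rfl fun i _ => ?_
    rw [hswap]; ring
  have h2 : ∀ x ∈ X, (1 - defi m x) * F x ≤ (∑ i, sg x i) * F x := by
    intro x hx
    by_cases hFx : F x = 0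
    · rw [hFx]; simp
    refine mul_le_mul_of_nonneg_right ?_ (hF x)
    obtain ⟨w₀, hw₀, hw₀x⟩ := hsupp x hx hFx
    obtain ⟨w, hw, hwl, hwx⟩ := exists_good hinv z0 w₀
    rw [hw₀x] at hwx
    have hlen : w.length ≤ q := hwl.trans hw₀
    have hS : ∀ y ∈ (X : Set U), ∀ i, m i y ∈ (X : Set U) := hX
    have hz0' : z0 ∈ (X : Set U) := hz0
    have dx : δ x = w.length :=
      dN_eq_of_good hinv hS hg hz0' hw hwx rfl (by omega) (by omega)
    -- lower bound for each letter
    have hlet : ∀ i, (1 - (if m i x = x then 1 else 0)) - 2 * (if w.getLast? = some i then 1 else 0)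
        ≤ sg x i := by
      intro i
      by_cases hfix : m i x = x
      · have : sg x i = 0 := by simp [hsg, hfix]
        rw [this, if_pos hfix]
        split_ifs <;> norm_num
      · rw [if_neg hfix]
        by_cases hlast : w.getLast? = some i
        · rw [if_pos hlast]
          have : (-1 : ℝ) ≤ sg x i := by
            simp only [hsg]; split_ifs <;> norm_num
          linarith
        · rw [if_neg hlast]
          have hne : m i (act m z0 w) ≠ act m z0 w := by rw [hwx]; exact hfix
          have d2 : δ (m i x) = w.length + 1 :=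
            dN_eq_of_good hinv hS hg hz0' (hw.snoc hne hlast) (by rw [act_append, hwx]; rfl)
              (by simp) (by omega) (by omega)
          have : sg x i = 1 := by simp [hsg, dx, d2]
          rw [this]; norm_num
    have hsum := Finset.sum_le_sum fun i (_ : i ∈ Finset.univ) => hlet i
    refine le_trans ?_ hsum
    rw [Finset.sum_sub_distrib, Finset.sum_sub_distrib, ← Finset.mul_sum]
    have hdefi : defi m x = ∑ i : Fin 3, if m i x = x then (1 : ℝ) else 0 := by
      unfold defi
      exact Finset.sum_congr rfl fun i _ => by congr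
    rw [← hdefi]
    have hone : ∑ i : Fin 3, (if w.getLast? = some i then (1 : ℝ) else 0) ≤ 1 := by
      cases hgl : w.getLast? with
      | none => simp
      | some k => simp
    simp only [Finset.sum_const, Finset.card_univ, Fintype.card_fin, nsmul_eq_mul]
    push_cast
    linarith
  have h3 := Finset.sum_le_sum h2
  have h4 : ∑ x ∈ X, ∑ i, sg x i * (F x - F (m i x)) ≤ ∑ x ∈ X, ∑ i, |F x - F (m i x)| :=
    Finset.sum_le_sum fun x _ => Finset.sum_le_sum fun i _ => hle x i
  rw [h1] at h4
  linarith

end P090
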